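import Vale.Agent.P004F.Pa.St
import Vale.Agent.P004F.Pt.Kd

/-! # P004F (FRAME), block PAT: the factor in the reciprocity law -/

set_option linter.all false

open NumberField Matrix Filter PowerSeries
open scoped Classical Pointwise

noncomputable section

namespace Vale.Agent.P004F.Pa

open Vale.Agent.P022 Vale.Agent.P004K
open Vale.Agent.P027M.S (Inert)
open Vale.Agent.P022D.W (dec)
open Vale.Agent.P022E.GW (Ov)
open Pr (ac)
open Pat (U Sy Im)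

namespace Et

/-! ### powers -/

theorem pow_two_pow {R : Type} [CommRing R] (I : Ideal R) (h2 : 2 ∈ I) {x : R} (h : x - 1 ∈ I)
    (n : ℕ) : x ^ 2 ^ n - 1 ∈ I ^ (n + 1) := by
  induction n with
  | zero => simpa using h
  | succ n k =>
    rw [pow_succ 2, pow_mul, show (x ^ 2 ^ n) ^ 2 - 1 = (x ^ 2 ^ n - 1) * (x ^ 2 ^ n - 1 + 2) by ring,
      pow_succ I]
    exact Ideal.mul_mem_mul k (add_mem (Ideal.pow_le_self n.succ_ne_zero k) h2)

theorem mj_pow (j : ℕ) (a : La) : mj j (1 + a * X) ^ 2 ^ (2 * j) = 1 := by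
  rw [← map_pow, ← map_one (mj j), Ideal.Quotient.eq]
  have := pow_two_pow (Ideal.span {2} ⊔ Ideal.span {X} : Ideal La)
    (Ideal.mem_sup_left (Ideal.mem_span_singleton_self _)) (x := 1 + a * X)
    (Ideal.mem_sup_right (by simpa using Ideal.mem_span_singleton.2 (dvd_mul_left _ a))) (2 * j)
  have k := Ideal.sup_pow_add_le_pow_sup_pow (I := (Ideal.span {2} : Ideal La))
    (J := Ideal.span {X}) (n := j) (m := j)
  replace k := k (Ideal.pow_le_pow_right (show j + j ≤ 2 * j + 1 by omega) this)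
  rwa [Ideal.span_singleton_pow, Ideal.span_singleton_pow, ← Ideal.span_insert] at k

theorem mj_mod {j : ℕ} (a : La) {n n' : ℕ} (h : n ≡ n' [MOD 2 ^ (2 * j)]) :
    mj j (1 + a * X) ^ n = mj j (1 + a * X) ^ n' := pow_eq_pow_of_modEq h (mj_pow j a)

theorem ps_eq (j : ℕ) (χ χ' : GQ → ℕ) (g : GQ) :
    ps j χ χ' g = mj j (1 + 1 * X) ^ χ g * mj j (1 + 2 * X) ^ χ' g := by
  rw [ps, map_mul, map_pow, map_pow, one_mul]

theorem ps_l {j : ℕ} {χ χ' : GQ → ℕ} {g : GQ} (h : 2 ^ (2 * j) ∣ χ' g) :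
    ps j χ χ' g = mj j (1 + 1 * X) ^ χ g := by
  rw [ps_eq, mj_mod 2 (Nat.modEq_zero_iff_dvd.2 h), pow_zero, mul_one]

theorem ps_r {j : ℕ} {χ χ' : GQ → ℕ} {g : GQ} (h : 2 ^ (2 * j) ∣ χ g) :
    ps j χ χ' g = mj j ((1 + 2 * X) ^ χ' g) := by
  rw [ps_eq, mj_mod 1 (Nat.modEq_zero_iff_dvd.2 h), pow_zero, one_mul, map_pow]

theorem ps_X (j : ℕ) (χ χ' : GQ → ℕ) (g : GQ) : ps j χ χ' g - 1 ∈ Ideal.span {mj j X} := by
  obtain ⟨y, e⟩ : (X : La) ∣ (1 + X) ^ χ g * (1 + 2 * X) ^ χ' g - 1 := X_dvd_iff.2 (by simp)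
  exact Ideal.mem_span_singleton.2 ⟨mj j y, by rw [← map_mul, ← e, map_sub, map_one, ps]⟩

theorem odd_unit {f : La} {o : ℕ} (h : Odd o) (e : constantCoeff f = o) : IsUnit f := by
  rw [Pat.rs_unit, Pat.rs, RingHom.comp_apply, e, map_natCast, h.natCast_zmod_two]
  exact one_ne_zero

theorem two_pow (a : ℕ) : ∃ w : La, IsUnit w ∧ (1 + 2 * X) ^ 2 ^ a = 1 + 2 ^ (a + 1) * X * w := by
  induction a with
  | zero => exact ⟨1, isUnit_one, by simp⟩
  | succ a k =>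
    obtain ⟨w, u, e⟩ := k
    exact ⟨w * (1 + 2 ^ a * X * w), u.mul (odd_unit odd_one (by simp)), by
      rw [pow_succ 2 a, pow_mul, e]; ring⟩

theorem dvd_two {m n : ℕ} (h : ¬ 2 ^ m ∣ n) : (1 + 2 * X : La) ^ n - 1 ∣ 2 ^ m * X := by
  obtain ⟨a, o, ho, rfl⟩ := Nat.exists_eq_two_pow_mul_odd (n := n) fun k => h (k ▸ dvd_zero _)
  obtain ⟨w, u, e⟩ := two_pow a
  have l : a + 1 ≤ m := by_contra fun k => h ((pow_dvd_pow 2 (by omega)).mul_right o)
  rw [pow_mul, ← geom_sum_mul, e, add_sub_cancel_left,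
    (odd_unit ho (by simp [map_sum])).mul_left_dvd, u.mul_right_dvd]
  exact mul_dvd_mul_right (pow_dvd_pow 2 l) X

/-! ### local vanishing -/

variable {e : Crv} {b : Fld e}

theorem vn_mul {j : ℕ} {Ψ : GQ → Rj j} {η : Rj j} {P : Ideal (𝓞 Qb)} (h : Vn b Ψ η P) (a : Rj j) :
    Vn b Ψ (a * η) P := fun M _ _ T x hx =>
  let ⟨m, k⟩ := h M T x hx
  ⟨a • m, fun g hg => by rw [← smul_smul, k g hg, Pr.ac_smul]⟩

theorem gp_mono {m n n' q : ℕ} (h : b.Gp m n q) (l : n' ≤ n) : b.Gp m n' q :=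
  let ⟨k, a, c⟩ := h.typ
  ⟨h.out, h.cop, ⟨k, a, (pow_dvd_pow 2 l).trans c⟩, h.gq⟩

variable {π : La}

/-- sequences which are not divisible by `π` -/
def Ex (π : La) (G : ∀ j, Rj (j + 1) → Prop) : Prop :=
  ∃ η : ∀ j, Rj (j + 1), ¬ π ∣ ur η ∧ ∀ᶠ j in U, G j (η j)

theorem Ex.mono {G G' : ∀ j, Rj (j + 1) → Prop} (h : Ex π G) (k : ∀ᶠ j in U, ∀ η, G j η → G' j η) :
    Ex π G' :=
  let ⟨η, a, c⟩ := h
  ⟨η, a, (c.and k).mono fun j x => x.2 _ x.1⟩

theorem Ex.and (hπ : Prime π) {G G' : ∀ j, Rj (j + 1) → Prop} (h : Ex π G) (h' : Ex π G')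
    (k : ∀ j η a, G j η → G j (a * η)) (k' : ∀ j η a, G' j η → G' j (a * η)) :
    Ex π fun j η => G j η ∧ G' j η :=
  let ⟨η, a, c⟩ := h
  let ⟨η', a', c'⟩ := h'
  ⟨η * η', fun d => (hπ.dvd_or_dvd (map_mul ur η η' ▸ d)).elim a a', (c.and c').mono fun j x =>
    ⟨by rw [Pi.mul_apply, mul_comm]; exact k j _ _ x.1, k' j _ _ x.2⟩⟩

theorem ex_fin (hπ : Prime π) {G : ∀ j, ℕ → Rj (j + 1) → Prop}
    (k : ∀ j l η a, G j l η → G j l (a * η)) (n : ℕ) : ∀ F : ℕ → Finset ℕ,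
    (∀ᶠ j in U, (F j).card ≤ n) → (∀ l : ℕ → ℕ, (∀ᶠ j in U, l j ∈ F j) → Ex π fun j => G j (l j)) →
    Ex π fun j η => ∀ l ∈ F j, G j l η := by
  have z : ∀ F : ℕ → Finset ℕ, (∀ᶠ j in U, F j = ∅) → Ex π fun j η => ∀ l ∈ F j, G j l η :=
    fun F h => ⟨1, by rw [map_one]; exact hπ.not_dvd_one, h.mono fun j x l hl => by simp [x] at hl⟩
  induction n with
  | zero => exact fun F h _ => z F (h.mono fun j x => Finset.card_eq_zero.1 (Nat.le_zero.1 x))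
  | succ n ih =>
    intro F h H
    rcases U.em fun j => F j = ∅ with a | a
    · exact z F a
    have : ∀ j, ∃ l, F j ≠ ∅ → l ∈ F j := fun j => by
      by_cases x : F j = ∅
      · exact ⟨0, fun y => absurd x y⟩
      · exact (Finset.nonempty_iff_ne_empty.2 x).imp fun l y _ => y
    choose l hl using this
    have a := a.mono hl
    refine ((H l a).and hπ (ih (fun j => (F j).erase (l j)) ((h.and a).mono fun j x => by
      rw [Finset.card_erase_of_mem x.2]; omega) fun l' y => H l' (y.mono fun j =>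
        Finset.mem_of_mem_erase)) (fun j => k j _) fun j η a y l' x => k j _ _ _ (y l' x)).mono
      (.of_forall fun j η y l' x => ?_)
    by_cases i : l' = l j
    · exact i ▸ y.1
    · exact y.2 l' (Finset.mem_erase.2 ⟨i, x⟩)

theorem ur_two (n : ℕ) : ur (fun j => (2 : Rj (j + 1)) ^ n) = 2 ^ n :=
  (map_pow ur 2 n).trans (by rw [map_ofNat])

/-- a unit at `π` plus a multiple of `x` -/
theorem ex_add (hπ : Prime π) (h2 : ¬ π ∣ 2) {G : ∀ j, Rj (j + 1) → Prop} {x : ∀ j, Rj (j + 1)}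
    (hx : π ∣ ur x) (n : ℕ) (h : ∀ᶠ j in U, ∃ v ∈ Ideal.span {x j}, G j (2 ^ n + v)) : Ex π G := by
  have : ∀ j, ∃ a, (∃ v ∈ Ideal.span {x j}, G j (2 ^ n + v)) → G j (2 ^ n + a * x j) := fun j => by
    by_cases y : ∃ v ∈ Ideal.span {x j}, G j (2 ^ n + v)
    · obtain ⟨v, y, z⟩ := y
      obtain ⟨a, rfl⟩ := Ideal.mem_span_singleton'.1 y
      exact ⟨a, fun _ => z⟩
    · exact ⟨0, fun z => absurd z y⟩
  choose a ha using this
  refine ⟨(fun j => 2 ^ n) + a * x, fun d => h2 (hπ.dvd_of_dvd_pow (n := n) ?_), h.mono ha⟩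
  rw [map_add, map_mul, ur_two] at d
  exact (dvd_add_left (hx.mul_left _)).1 d

theorem ex_sq (hπ : Prime π) {G : ∀ j, Rj (j + 1) → Prop} {x : ∀ j, Rj (j + 1)}
    (hx : ¬ π ∣ ur x) (h : ∀ᶠ j in U, G j (x j ^ 2)) : Ex π G :=
  ⟨x ^ 2, fun d => hx (hπ.dvd_of_dvd_pow (map_pow ur x 2 ▸ d)), h⟩

variable (s : Sq b)

theorem mem_C {j l : ℕ} (h : l ∈ (s.C j).primeFactors) (k : (s.q j).Prime) :
    l ∈ (s.c j).primeFactors ∨ l = s.q j := by
  obtain ⟨a, c, d⟩ := Nat.mem_primeFactors.1 h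
  exact (a.dvd_mul.1 c).imp (fun x => Nat.mem_primeFactors.2 ⟨a, x, left_ne_zero_of_mul d⟩)
    (Nat.prime_dvd_prime_iff_eq a k).1

/-- one sequence of places -/
theorem one (r2 : RC2) (hT : TWV) (hπ : Prime π) (h2 : ¬ π ∣ 2) (l : ℕ → ℕ) (P : ℕ → Ideal (𝓞 Qb))
    (h : ∀ᶠ j in U, l j ∈ (s.C j).primeFactors ∧ Ov (l j) (P j)) :
    Ex π fun j η => Vn b (s.Ψ j) η (P j) := by
  obtain ⟨c₀, hT⟩ := hT e b s.m
  have gp : ∀ᶠ j in U, b.Gp s.m (2 * (j + 1)) (l j) := ((h.and s.tw).and s.pe).mono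
    fun j ⟨⟨x, y⟩, z⟩ => (mem_C s x.1 z.xq.choose_spec.2.pr).elim (y.gp _) fun k => k ▸ z.gp
  have H := ((h.and gp).and s.chr).mono fun j ⟨⟨x, y⟩, z⟩ =>
    hT _ _ _ _ _ z (gp_mono y (by omega)) x.2
  by_cases hX : π ∣ X
  · exact ex_add hπ h2 (x := fun j => mj (j + 1) X) (by rwa [Sy.succ.ur_const]) c₀
      (H.mono fun j x => x.2 _ fun g _ => ps_X _ _ _ g)
  have : ∀ j, ∃ g, (l j ∈ (s.C j).primeFactors ∧ Ov (l j) (P j)) ∧
      b.Tw s.m (2 * (j + 1)) (s.c j) (s.χ j) ∧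
      b.Pe s.m s.k s.y (2 * (j + 1)) (s.c j) (s.χ j) (s.q j) (s.χ' j) → Inert (P j) g ∧
      ((∀ h ∈ b.Γ ⊓ dec (P j), s.Ψ j h - 1 ∈ Ideal.span {s.Ψ j g - 1}) ∨
        s.Ψ j g - 1 ∣ 2 ^ s.m * mj (j + 1) X) := fun j => by
    by_cases y : (l j ∈ (s.C j).primeFactors ∧ Ov (l j) (P j)) ∧
      b.Tw s.m (2 * (j + 1)) (s.c j) (s.χ j) ∧
      b.Pe s.m s.k s.y (2 * (j + 1)) (s.c j) (s.χ j) (s.q j) (s.χ' j)
    swap
    · exact ⟨1, fun z => absurd z y⟩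
    obtain ⟨⟨x, o⟩, y, z⟩ := y
    obtain ⟨v, -, w⟩ := z.xq
    rcases mem_C s x w.pr with k | k
    · obtain ⟨g, g1, -, g2⟩ := y.ram _ k _ o
      have g3 : g ∈ b.Γ ⊓ dec (P j) :=
        ⟨b.inert_mem o (e.ne_two (y.gp _ k).out) (y.gp _ k).cop g1, P004S.inert_dec g1⟩
      refine ⟨g, fun _ => ⟨g1, .inl fun h hh => ?_⟩⟩
      obtain ⟨n, hn⟩ := g2 h hh
      rw [Sq.Ψ, ps_l (z.tw _ k _ o h hh), ps_l (z.tw _ k _ o g g3), mj_mod 1 hn, pow_mul']
      exact Ideal.mem_span_singleton.2 (sub_one_dvd_pow_sub_one _ n)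
    · rw [k] at o
      obtain ⟨g, g1, g2⟩ := z.ram _ o
      refine ⟨g, fun _ => ⟨g1, .inr ?_⟩⟩
      have g3 := y.ker g (P004R.Wr.inert_hc r2 b.iq o (fun d => w.out (Finset.mem_union_right _
        (Nat.mem_primeFactors.2 ⟨w.pr, d, y.sq.ne_zero⟩)))
        (b.inert_mem o (e.ne_two z.gp.out) w.cop g1) g1)
      rw [Sq.Ψ, ps_r g3]
      simpa only [map_sub, map_one, map_mul, map_pow (mj (j + 1)) 2, map_ofNat] using
        map_dvd (mj (j + 1)) (dvd_two g2)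
  choose g hg using this
  have hg := (h.and (s.tw.and s.pe)).mono hg
  by_cases d : π ∣ ur fun j => s.Ψ j (g j) - 1
  swap
  · exact ex_sq hπ d ((H.and hg).mono fun j x => x.1.1 _ x.2.1)
  rcases U.eventually_or.1 (hg.mono fun j x => x.2) with a | a
  · exact ex_add hπ h2 d c₀ ((H.and a).mono fun j x => x.1.2 _ x.2)
  · have : ∀ j, ∃ y, s.Ψ j (g j) - 1 ∣ 2 ^ s.m * mj (j + 1) X →
        2 ^ s.m * mj (j + 1) X = (s.Ψ j (g j) - 1) * y := fun j => by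
      by_cases y : s.Ψ j (g j) - 1 ∣ 2 ^ s.m * mj (j + 1) X
      · exact y.imp fun y z _ => z
      · exact ⟨0, fun z => absurd z y⟩
    choose y hy using this
    have k : ur ((fun j => 2 ^ s.m) * fun j => mj (j + 1) X) =
      ur ((fun j => s.Ψ j (g j) - 1) * y) := Sy.succ.ur_ae (a.mono hy)
    rw [map_mul, map_mul, ur_two, Sy.succ.ur_const] at k
    exact ((hπ.dvd_or_dvd (k ▸ d.mul_right _)).elim (fun i => h2 (hπ.dvd_of_dvd_pow i)) hX).elim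

end Et

open Et

theorem eta (r2 : RC2) (hV : VAN) (hT : TWV) : ETA := fun e b s π hπ h2 => by
  obtain ⟨c₀, hV⟩ := hV e b
  let G : ∀ j, ℕ → Rj (j + 1) → Prop := fun j l η =>
    ∀ P, Ov l P → ∃ g ∈ b.Γ, Vn b (s.Ψ j) η (g • P)
  have k : ∀ j l η a, G j l η → G j l (a * η) := fun j l η a h P o =>
    (h P o).imp fun g x => ⟨x.1, vn_mul x.2 a⟩
  have h1 : Ex π fun j η => ∀ l ∈ e.S, l ≠ 2 → l ∉ e.σ → G j l η :=
    ⟨fun j => 2 ^ c₀, fun d => h2 (hπ.dvd_of_dvd_pow (ur_two c₀ ▸ d)), s.chr.mono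
      fun j h l a a' a'' P o => ⟨1, one_mem _, fun M _ _ T x hx =>
        (hV l a a' a'' _ _ _ h M T x hx P o).imp fun m y g hg => by
          rw [← y g (by simpa using hg.2), ← Nat.cast_smul_eq_nsmul (Rj (j + 1))]
          simp⟩⟩
  have h3 : Ex π fun j η => ∀ l ∈ (s.C j).primeFactors, G j l η := by
    refine ex_fin hπ k (s.m + 1) _ ((s.tw.and s.pe).mono fun j x => ?_) fun l hl => ?_
    · refine (Finset.card_le_card (t := insert (s.q j) (s.c j).primeFactors) fun l hl => ?_).trans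
        ((Finset.card_insert_le _ _).trans (Nat.succ_le_succ x.1.crd))
      exact Finset.mem_insert.2 (mem_C s hl x.2.xq.choose_spec.2.pr).symm
    · have : ∀ l : ℕ, ∃ P, l.Prime → Ov l P := fun l => by
        by_cases y : l.Prime
        · exact (P004R.Cb.ex_ov y).imp fun P z _ => z
        · exact ⟨⊤, fun z => absurd z y⟩
      choose P hP using this
      have o := hl.mono fun j x => hP _ (Nat.prime_of_mem_primeFactors x)
      refine ((one s r2 hT hπ h2 l (fun j => P (l j)) (hl.and o)).and hπ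
        (one s r2 hT hπ h2 l (fun j => b.c • P (l j)) (hl.and (o.mono fun j x =>
          P022K.GW.ov_smul x _))) (fun j η a x => vn_mul x a) fun j η a x => vn_mul x a).mono
        (o.mono fun j x η y Q oq => ?_)
      obtain ⟨t, i⟩ := P022E.GW.Tg.trans oq x
      by_cases m : t ∈ b.Γ
      · exact ⟨t, m, i ▸ y.1⟩
      · exact ⟨b.c * t, b.mul_out b.c_out m, by rw [← smul_smul, ← i]; exact y.2⟩
  exact (h1.and hπ h3 (fun j η a x l i i' i'' => k j l η a (x l i i' i''))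
    fun j η a x l i => k j l η a (x l i)).mono (.of_forall fun j η x l hl a a' =>
      (Finset.mem_union.1 hl).elim (fun i => x.1 l (List.mem_toFinset.1 i) a a') (x.2 l))

end Vale.Agent.P004F.Pa
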