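import Vale.Agent.P004F.Pa.Isl

/-! # P004F, block PAT, row EXL: one more prime -/

set_option linter.all false

noncomputable section

namespace Vale.Agent.P004F.Pa

open Matrix Submodule Set
open Vale.Agent.P022 Vale.Agent.P022K
open Vale.Agent.P022K.G2 (In)
open Vale.Agent.P022.H443 (inP)
open Vale.Agent.P022E.GW (Ov)
open Vale.Agent.P004K (RC1 RC2)
open Pr (ac Gd)
open scoped Pointwise

namespace Xl

variable {R M I I' s : Type} [CommRing R] [AddCommGroup M] [Module R M] [Fintype I] [Fintype I']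

/-- the value of a row at a point -/
abbrev ev (y : I → M) : (I → R) →ₗ[R] M := Fintype.linearCombination R y

theorem ev_ac (A : Matrix s I R) (y : I → M) (i : s) : ac A y i = ev y (A i) := rfl

theorem ev_vm (A : Matrix I' I R) (y : I → M) (v : I' → R) : ev y (v ᵥ* A) = ev (ac A y) v := by
  rw [vecMul_eq_sum, map_sum, Fintype.linearCombination_apply]
  exact Finset.sum_congr rfl fun i _ => map_smul ..

theorem ev_ker {A : Matrix s I R} {y : I → M} (h : ac A y = 0) {v : I → R}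
    (hv : v ∈ span R (range A)) : ev y v = 0 :=
  (span_le (p := LinearMap.ker (ev y))).2 (range_subset_iff.2 fun i => congrFun h i) hv

theorem ev_un [DecidableEq I] (L : Submodule R (I → R)) (v : I → R) :
    ev (fun n => L.mkQ (Pi.single n 1)) v = L.mkQ v := ac_un L (of fun _ : Unit => v) ()

theorem ex_mat [DecidableEq I] (L : Submodule R (I → R)) (y : I' → (I → R) ⧸ L) :
    ∃ A : Matrix I' I R, ∀ v, L.mkQ (v ᵥ* A) = ev y v := by
  choose A hA using fun i => L.mkQ_surjective (y i)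
  refine ⟨of A, fun v => ?_⟩
  rw [← ev_un, ev_vm]
  exact congrArg (ev · v) (funext fun i => (ac_un L _ i).trans (hA i))

theorem ev_rot (y : I → M) (w : ℕ) (C : M2 R) (u : Matrix (Fin 2) I R) (n : Fin 2) :
    ev y ((w • (!![0, -1; 1, 0] * C * u : Matrix _ I R)) n) =
      ((w : R) • Ra.rot (ac C (ac u y))) n := by
  let L := LinearMap.ker (ev y : (I → R) →ₗ[R] M)
  have := congrArg (L.liftQ (ev y) le_rfl) (rot_un L w C u n)
  refine this.trans ?_
  rw [Pi.smul_apply, Pi.smul_apply, map_smul]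
  refine congrArg ((w : R) • ·) ?_
  have e : ∀ i, L.liftQ (ev y) le_rfl (ac C (fun i => L.mkQ (u i)) i) = ac C (ac u y) i := fun i =>
    (congrFun (Ra.ac_map (L.liftQ (ev y) le_rfl) C _) i).symm
  fin_cases n
  exacts [(map_neg _ _).trans (congrArg Neg.neg (e 1)), e 0]

theorem rot_zero {v : Fin 2 → M} (h : Ra.rot v = 0) : v = 0 := by
  funext i
  fin_cases i
  exacts [congrFun h 1, neg_eq_zero.1 (congrFun h 0)]

variable {e : Crv} {b : Fld e}

theorem sel_of {T T' : Finset ℕ} {a : GQ → M2 R} {ε : GQ → Fin 2 → R} {x : GQ → Fin 2 → M} {t : M}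
    {m : e.σ → Fin 2 → M} (h : b.Sel T a ε x t m) (u : ∀ g ∈ In (T' : Set ℕ), x g = 0) :
    b.Sel T' a ε x t m := ⟨⟨h.coc, h.out, h.lc, u⟩, h.sv, h.sp⟩

/-- a cocycle which vanishes at the tame generator is unramified at all places above `l` -/
theorem unr_all {N l : ℕ} {Γ : Subgroup GQ} {T T' : Finset ℕ} {a : GQ → M2 R}
    {x : GQ → Fin 2 → M} {P Q : Ideal (NumberField.RingOfIntegers Qb)} {φ τ g : GQ} (G : Gd Γ T a)
    (K : Ra.Kl N Γ a l P φ τ) (h2 : (2 : R) ^ N = 0) (X : Cc Γ T' a x) (h0 : x τ = 0)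
    (ho : Ov l Q) (hg : g ∈ inP Q) : x g = 0 := by
  obtain ⟨u, hu, rfl⟩ : ∃ u ∈ Γ, u • P = Q := by
    obtain ⟨u, rfl⟩ := GW.Pl.ov_trans K.ov ho
    by_cases m : u ∈ Γ
    · exact ⟨u, m, rfl⟩
    · exact ⟨u * φ, Ra.mul_out G m K.out, by
        rw [mul_smul, (GW.Pl.dec_iff _ _).1 (P022D.W.phi_mem K.ov.1 K.ov.2.1 K.fb)]⟩
  have m : P027M.S.Inert P (u⁻¹ * g * u) := by simpa using GW.Pl.inert_conj hg u⁻¹
  obtain ⟨n, hn⟩ := Ra.loc_in K h2 X m
  rw [show g = u * (u⁻¹ * g * u) * u⁻¹ by group, Ra.x_conj G X hu (K.ur m) (K.ine _ m), hn, h0,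
    smul_zero, Pr.ac_zero]

end Xl

open Xl

/-- **the row EXL** -/
theorem exl (r1 : RC1) (r2 : RC2) : EXL := by
  intro e b j c Ψ ε w ι _ _ k r r' d d' hΨ od un un' L L' hL hL'
  have hT : ∀ p, p ∈ Tk b c Ψ k ↔ p ∈ Tk b c Ψ (fun i => k (some i)) ∨ (k none).l = p := fun p => by
    simp [Tk, Option.exists, or_assoc, or_comm, or_left_comm]
  have nT : (k none).l ∉ Tk b c Ψ fun i => k (some i) := fun m => by
    rcases Finset.mem_union.1 m with m | m
    · exact (k none).out m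
    · obtain ⟨i, -, h⟩ := Finset.mem_image.1 m
      exact Option.some_ne_none i (un'.inj h)
  have z : ∀ {v}, v ∈ L ↔ L.mkQ v = 0 := (Submodule.Quotient.mk_eq_zero L).symm
  have z' : ∀ {v}, v ∈ L' ↔ L'.mkQ v = 0 := (Submodule.Quotient.mk_eq_zero L').symm
  have p1 : ac (d.Rm b Ψ) (fun n => L.mkQ (Pi.single n 1)) = 0 :=
    funext fun i => (ac_un L _ i).trans (z.1 (hL ▸ subset_span ⟨i, rfl⟩))
  have p2 : ac (d'.Rm b Ψ) (fun n => L'.mkQ (Pi.single n 1)) = 0 :=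
    funext fun i => (ac_un L' _ i).trans (z'.1 (hL' ▸ mem_sup_left (subset_span ⟨i, rfl⟩)))
  have X := (un.bij _).mapsTo p1
  have X' := (un'.bij _).mapsTo p2
  have t0 : ac (d'.u (k none).τ) (fun n => L'.mkQ (Pi.single n 1)) = 0 := by
    have h1 : (w (k none).l (k none).τ : Rj (j + 1)) • Ra.rot (ac ((e.r b.c).map (cj (j + 1)))
        (ac (d'.u (k none).τ) fun n => L'.mkQ (Pi.single n 1))) = 0 := funext fun n =>
      (ev_rot _ _ _ _ n).symm.trans ((ev_un L' _).trans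
        (z'.1 (hL' ▸ mem_sup_right (subset_span ⟨n, rfl⟩))))
    have h2 := congrArg (ac ((e.r b.c).map (cj (j + 1))))
      (rot_zero ((Ra.unit_odd (Ra.two_Rj _) od).smul_eq_zero.1 h1))
    rwa [← Ra.ac_mul, Ra.rc_sq, Ra.ac_one, Pr.ac_zero] at h2
  obtain ⟨y', q1, q2⟩ := (un'.bij _).surjOn (sel_of (T' := Tk b c Ψ k) X fun g hg =>
    X.unr g (G2.In_anti (fun p m => (hT p).2 (.inl m)) hg))
  obtain ⟨y, q3, q4⟩ := (un.bij _).surjOn (sel_of (T' := Tk b c Ψ fun i => k (some i)) X'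
    fun g ⟨p, hp, Q, ho, hg⟩ => by
      by_cases h : (k none).l = p
      · exact unr_all (Ra.gd r1 r2 hΨ (Finset.Subset.refl _) fun _ => Ra.T_prime)
          (Ra.kl (k none) r1 r2 hΨ) (Ra.two_Rj' _) X'.toCc t0 (h ▸ ho) hg
      · exact X'.unr g ⟨p, fun m => ((hT p).1 m).elim hp h, Q, ho, hg⟩)
  obtain ⟨A, hA⟩ := ex_mat L y'
  obtain ⟨A', hA'⟩ := ex_mat L' y
  obtain ⟨a1, a2, a3⟩ : _ ∧ _ ∧ _ := by simpa only [Prod.mk.injEq] using q2
  obtain ⟨a4, a5, a6⟩ : _ ∧ _ ∧ _ := by simpa only [Prod.mk.injEq] using q4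
  have f1 : ∀ v ∈ L', v ᵥ* A ∈ L := fun v hv => by
    rw [z, hA]
    refine (?_ : L' ≤ LinearMap.ker (ev y')) hv
    rw [hL']
    refine sup_le (fun v hv => ev_ker q1 hv) (span_le.2 (range_subset_iff.2 fun n => ?_))
    refine (ev_rot _ _ _ _ n).trans ?_
    rw [congrFun a1 _, show ac (d.u (k none).τ) _ = 0 from
      X.unr _ ⟨_, nT, _, (k none).kp.ov, (k none).kp.gn.1⟩, Pr.ac_zero]
    fin_cases n <;> simp [Ra.rot]
  have f4 : ∀ g i, d'.u g i ᵥ* A - d.u g i ∈ L := fun g i => by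
    rw [z, map_sub, hA, ← ev_un, sub_eq_zero]
    exact congrFun (congrFun a1 g) i
  have f5 : d'.t ᵥ* A - d.t ∈ L := by
    rw [z, map_sub, hA, ← ev_un, sub_eq_zero]
    exact a2
  have f6 : ∀ p i, d'.m p i ᵥ* A - d.m p i ∈ L := fun p i => by
    rw [z, map_sub, hA, ← ev_un, sub_eq_zero]
    exact congrFun (congrFun a3 p) i
  have k0 : ∀ {v}, v ∈ L → ev y v = 0 := fun hv => ev_ker q3 (hL ▸ hv)
  have k1 : ∀ {v v'}, v' ᵥ* A - v ∈ L → ev (ac A y) v' = ev y v := fun h => by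
    have := k0 h
    rwa [map_sub, ev_vm, sub_eq_zero] at this
  refine ⟨A, A', f1, fun v hv => by rw [z', hA', k0 hv], fun v => ?_, f4, f5, f6⟩
  have := (un'.bij _).injOn (x₁ := ac A y) (funext fun i => (ev_vm A y _).symm.trans
    (k0 (f1 _ (hL' ▸ mem_sup_left (subset_span ⟨i, rfl⟩))))) p2 (Prod.ext
      ((funext fun g => funext fun i => k1 (f4 g i)).trans a4) (Prod.ext ((k1 f5).trans a5)
      ((funext fun p => funext fun i => k1 (f6 p i)).trans a6)))
  rw [z', map_sub, hA', ev_vm, this, ev_un, sub_self]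

end Vale.Agent.P004F.Pa
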