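import Vale.Agent.P004F.St

/-! # P004F (FRAME), block PAT: level packages, sequences, limits -/

set_option linter.all false

open NumberField Matrix Filter PowerSeries Submodule Set
open scoped Classical Pointwise

noncomputable section

namespace Vale.Agent.P004F.Pa

open Vale.Agent.P022 Vale.Agent.P004K
open Vale.Agent.P027M.S (Inert)
open Vale.Agent.P022D.W (dec)
open Vale.Agent.P022E.GW (Ov Fb Gn)
open P004S (nu)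
open P004T (ds TwoK)
open Pr (ac)
open Pat (U Sy)

variable {e : Crv} (b : Fld e)

/-! ### one level -/

section level

variable {j : ℕ} (c : ℕ) (Ψ : GQ → Rj j) (ε : GQ → Fin 2 → Rj j)

/-- the tame relation at the conjugate place -/
def Nl (p : e.σ) : Matrix (Fin 2) (Fin 2 ⊕ Fin 2) (Rj j) :=
  Nt (b.aa j Ψ (b.c * b.φ p * b.c)) (b.aa j Ψ (b.c * e.τ p * b.c)) p

/-- only the relations matter at a finite level -/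
def gl : Gl (Rj j) GQ e.σ := ⟨1, ⊥, ∅, 0, fun _ => ∅, Nl b Ψ, 0, 0⟩

/-- the raw data of a presentation -/
structure Rw (R σ ι : Type) (r : ℕ) where
  Q : Matrix (Fin r) (Ix r σ ι) R
  l : σ → Matrix (Fin 2 ⊕ Fin 2) (Ix r σ ι) R
  u : GQ → Matrix (Fin 2) (Ix r σ ι) R
  t : Ix r σ ι → R
  m : σ → Matrix (Fin 2) (Ix r σ ι) R

variable {ι : Type} [Fintype ι] [DecidableEq ι] {r : ℕ}

/-- the singular coordinates -/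
def sc (w : ℕ → GQ → ℕ) (k : b.Kp j c Ψ) (u : GQ → Matrix (Fin 2) (Ix r e.σ ι) (Rj j)) :
    Matrix (Fin 2) (Ix r e.σ ι) (Rj j) :=
  w k.l k.τ • (!![0, -1; 1, 0] * (e.r b.c).map (cj j) * u k.τ)

/-- the package of a family of Kolyvagin primes -/
def pk (w : ℕ → GQ → ℕ) (k : ι → b.Kp j c Ψ) (d : Rw (Rj j) e.σ ι r)
    (κ : Finset ι → Ix r e.σ ι → Rj j) : Pk (Rj j) GQ e.σ :=
  { ι := ι, r := r, Q := d.Q, l := d.l, u := d.u, t := d.t, m := d.m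
    f := fun x => d.u ((k x.1).φ ^ 2) x.2, s := fun x => sc b c Ψ w (k x.1) d.u x.2, κ := κ }

/-- the relations -/
def Rw.Rm (d : Rw (Rj j) e.σ ι r) : Matrix (Fin r ⊕ e.σ × Fin 2) (Ix r e.σ ι) (Rj j) :=
  .of (Sum.elim d.Q fun x => (Nl b Ψ x.1 * d.l x.1) x.2)

/-- the bad primes of the stage -/
def Tk (k : ι → b.Kp j c Ψ) : Finset ℕ := b.T c ∪ Finset.univ.image fun i => (k i).l

/-- **the universal property** -/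
structure Un (k : ι → b.Kp j c Ψ) (d : Rw (Rj j) e.σ ι r) : Prop where
  inj : Function.Injective fun i => (k i).l
  bij : ∀ (M : Type) [AddCommGroup M] [Module (Rj j) M],
    BijOn (fun y : Ix r e.σ ι → M => (fun g => ac (d.u g) y, ∑ i, d.t i • y i, fun p => ac (d.m p) y))
      {y | ac (d.Rm b Ψ) y = 0} {x | b.Sel (Tk b c Ψ k) (b.aa j Ψ) ε x.1 x.2.1 x.2.2}
  loc : ∀ p i, d.l p i - Sum.elim (d.u (b.c * b.φ p * b.c)) (d.u (b.c * e.τ p * b.c)) i ∈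
    span (Rj j) (range (d.Rm b Ψ))

/-- `η` kills the local classes at `P` -/
def Vn (η : Rj j) (P : Ideal (𝓞 Qb)) : Prop :=
  ∀ (M : Type) [AddCommGroup M] [Module (Rj j) M] (T : Finset ℕ) (x : GQ → Fin 2 → M),
    Cc b.Γ T (b.aa j Ψ) x → ∃ m, ∀ g ∈ b.Γ ⊓ dec P, η • x g = ac (b.aa j Ψ g - 1) m

/-- the same at all relaxed places -/
def Va (η : Rj j) : Prop := ∀ l ∈ b.T c, l ≠ 2 → l ∉ e.σ → ∀ P, Ov l P →
  ∃ g ∈ b.Γ, Vn b Ψ η (g • P)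

/-- `ε` is a local cocycle -/
structure Ec : Prop where
  coc : ∀ g ∈ dec (e.P 2), ∀ h ∈ dec (e.P 2), ε (g * h) = ε g + b.aa j Ψ g *ᵥ ε h
  lc : ∃ W : Subgroup GQ, IsOpen (W : Set GQ) ∧ ∀ w ∈ W, w ∈ dec (e.P 2) → ε w = 0

end level

/-- presentations exist, with a bounded number of relations -/
def LEV : Prop := ∀ (e : Crv) (b : Fld e) (m n : ℕ), ∃ r₀ : ℕ,
  ∀ (j c : ℕ) (Ψ : GQ → Rj (j + 1)) ε, b.Chr (j + 1) c Ψ → Ec b Ψ ε →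
  (∀ g ∈ b.Γ, Pat.rk j (Ψ g) = 1) → c.primeFactors.card ≤ m →
  (∃ q ∈ c.primeFactors, ∃ P, Ov q P ∧ dec P ≤ b.Γ ∧
    ∀ g ∈ dec P, (e.r g).map PadicInt.toZMod = 1) →
  ∀ (ι : Type) [Fintype ι] [DecidableEq ι] (k : ι → b.Kp (j + 1) c Ψ), Fintype.card ι ≤ n →
    (Function.Injective fun i => (k i).l) → ∃ r ≤ r₀, ∃ d : Rw _ e.σ ι r, Un b c Ψ ε k d

/-- consequences of the universal property -/
def PK1 : Prop := ∀ (e : Crv) (b : Fld e) (j c : ℕ) (Ψ : GQ → Rj (j + 1)) ε (ι : Type) [Fintype ι]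
  [DecidableEq ι] (k : ι → b.Kp (j + 1) c Ψ) (r : ℕ) (d : Rw _ e.σ ι r), Un b c Ψ ε k d →
  ∀ L, L = span (Rj (j + 1)) (range (d.Rm b Ψ)) →
  (∀ g ∈ b.Γ, ∀ h ∈ b.Γ, ∀ i, (d.u (g * h) - d.u g - b.aa _ Ψ g * d.u h) i ∈ L) ∧
  (∃ W : Subgroup GQ, IsOpen (W : Set GQ) ∧ ∀ w ∈ W, ∀ i, d.u w i ∈ L) ∧
  (∀ g ∈ dec (e.P 2), ∀ i, d.u g i - ε g i • d.t ∈ L) ∧
  (∀ p : e.σ, ∀ g ∈ dec (e.P p), ∀ i, d.u g i - (b.aa _ Ψ g - 1) i ᵥ* d.m p ∈ L) ∧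
  ∃ (g : Ix r e.σ ι → GQ) (i : Ix r e.σ ι → Fin 2), (∀ x, g x ∈ b.Γ) ∧
    span (Rj (j + 1)) (range fun x => d.u (g x) (i x)) ⊔ L ⊔
      span (Rj (j + 1)) (insert d.t {v | ∃ p i, v = d.m p i}) = ⊤

/-- one more prime -/
def EXL : Prop := ∀ (e : Crv) (b : Fld e) (j c : ℕ) (Ψ : GQ → Rj (j + 1)) ε w (ι : Type) [Fintype ι]
  [DecidableEq ι] (k : Option ι → b.Kp (j + 1) c Ψ) (r r' : ℕ) (d : Rw _ e.σ ι r)
  (d' : Rw _ e.σ (Option ι) r'), b.Chr (j + 1) c Ψ → Odd (w (k none).l (k none).τ) →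
  Un b c Ψ ε (fun i => k (some i)) d → Un b c Ψ ε k d' →
  ∀ L L', L = span (Rj (j + 1)) (range (d.Rm b Ψ)) →
    L' = span (Rj (j + 1)) (range (d'.Rm b Ψ)) ⊔
      span (Rj (j + 1)) (range (sc b c Ψ w (k none) d'.u)) →
  ∃ (A : Matrix (Ix r' e.σ (Option ι)) (Ix r e.σ ι) (Rj (j + 1)))
    (A' : Matrix (Ix r e.σ ι) (Ix r' e.σ (Option ι)) (Rj (j + 1))),
    (∀ v ∈ L', v ᵥ* A ∈ L) ∧ (∀ v ∈ L, v ᵥ* A' ∈ L') ∧ (∀ v, v ᵥ* A ᵥ* A' - v ∈ L') ∧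
    (∀ g i, d'.u g i ᵥ* A - d.u g i ∈ L) ∧ d'.t ᵥ* A - d.t ∈ L ∧
    ∀ p i, d'.m p i ᵥ* A - d.m p i ∈ L

/-- reciprocity for the universal classes -/
def ISL : Prop := ∀ j : ℕ, ∃ w : ℕ → GQ → ℕ, (∀ l P τ, Ov l P → l ≠ 2 → Gn l P τ → Odd (w l τ)) ∧
  ∀ (e : Crv) (b : Fld e) (c : ℕ) (Ψ : GQ → Rj (j + 1)) ε η (ι : Type) [Fintype ι] [DecidableEq ι]
    (k : ι → b.Kp (j + 1) c Ψ) (r : ℕ) (d : Rw _ e.σ ι r) κ, b.Chr (j + 1) c Ψ → Un b c Ψ ε k d →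
    Va b c Ψ η → (pk b c Ψ w k d κ).Iso (gl b Ψ) η

/-- local vanishing at the primes of the conductor -/
def TWV : Prop := ∀ (e : Crv) (b : Fld e) (m : ℕ), ∃ c₀ : ℕ, ∀ (j c : ℕ) (Ψ : GQ → Rj j) q P,
  b.Chr j c Ψ → b.Gp m j q → Ov q P → (∀ g, Inert P g → Vn b Ψ ((Ψ g - 1) ^ 2) P) ∧
    ∀ 𝔟 : Ideal (Rj j), (∀ h ∈ b.Γ ⊓ dec P, Ψ h - 1 ∈ 𝔟) → ∃ v ∈ 𝔟, Vn b Ψ (2 ^ c₀ + v) P

/-! ### sequences -/

/-- the limit -/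
abbrev ur : (∀ j, Rj (j + 1)) →+* La := Sy.succ.ur

/-- the limit of matrices -/
abbrev um {m n : Type} (A : ∀ j, Matrix m n (Rj (j + 1))) : Matrix m n La := Sy.succ.um A

/-- the character -/
def ps (j : ℕ) (χ χ' : GQ → ℕ) (g : GQ) : Rj j := mj j ((1 + X) ^ χ g * (1 + 2 * X) ^ χ' g)

/-- the perturbed tower with its Euler system -/
structure Sq where
  m : ℕ
  k : ℕ
  c₀ : ℕ
  B : ℕ
  J : ℕ
  l : ℕ
  y : ℕ → ℕ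
  c : ℕ → ℕ
  χ : ℕ → GQ → ℕ
  q : ℕ → ℕ
  χ' : ℕ → GQ → ℕ
  ε : ∀ j, GQ → Fin 2 → Rj (j + 1)
  κ : ∀ j, Finset (b.Kp (j + 1) (c j * q j) (ps (j + 1) (χ j) (χ' j))) → GQ → Fin 2 → Rj (j + 1)
  t : ∀ j, Finset (b.Kp (j + 1) (c j * q j) (ps (j + 1) (χ j) (χ' j))) → Rj (j + 1)
  μ : ∀ j, Finset (b.Kp (j + 1) (c j * q j) (ps (j + 1) (χ j) (χ' j))) → e.σ → Fin 2 → Rj (j + 1)
  tw : ∀ᶠ j in U, b.Tw m (2 * (j + 1)) (c j) (χ j)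
  pe : ∀ᶠ j in U, b.Pe m k y (2 * (j + 1)) (c j) (χ j) (q j) (χ' j)
  chr : ∀ᶠ j in U, b.Chr (j + 1) (c j * q j) (ps (j + 1) (χ j) (χ' j))
  es : ∀ᶠ j in U, b.Es c₀ (j + 1) (c j * q j) (ps (j + 1) (χ j) (χ' j)) (ε j) (κ j) (t j) (μ j)
  an : ∀ᶠ j in U, t j ∅ ∉ Ideal.span {2, mj (j + 1) X ^ (l + 1)}
  BJ : B < J
  up : ∀ᶠ j in U, Nat.card (b.Z1 J (c j * q j) (χ j)) ≤ 2 ^ B
  lo : ∀ᶠ j in U, 2 ^ (2 * l) ≤ Nat.card (b.Z1 J (c j * q j) (χ j))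
  gs : Fin 3 → ℕ → b.Γ
  is : Fin 3 → Fin 2
  gv : ∀ i j, (gs i j : GQ) ∈ dec (e.P 2)
  β : La
  βe : β = det (Matrix.of fun i => Fin.snoc (α := fun _ => La)
    ((um (fun j => b.aa _ (ps (j + 1) (χ j) (χ' j)) (gs i j)) - 1) (is i))
    (ur fun j => ε j (gs i j) (is i)))
  β0 : β ≠ 0
  sep : ∀ π : La, Prime π → ¬ π ∣ 2 →
    (∀ x, Sj π (um fun j => Nl b (ps (j + 1) (χ j) (χ' j)) x)) ∨
    (¬ π ∣ X ∧ ¬ π ∣ β ∧ ∃ x, (∃ i i', ¬ π ∣ um (fun j => Nl b (ps (j + 1) (χ j) (χ' j)) x) i i') ∧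
      ∀ y, y ≠ x → Sj π (um fun j => Nl b (ps (j + 1) (χ j) (χ' j)) y))

namespace Sq

variable {b} (s : Sq b)

abbrev Ψ (j : ℕ) : GQ → Rj (j + 1) := ps (j + 1) (s.χ j) (s.χ' j)

abbrev C (j : ℕ) : ℕ := s.c j * s.q j

theorem sm {R : Type} [CommRing R] (x y : R) (A B : M2 R) : (x * y) • (A * B) = x • A * y • B := by
  rw [Matrix.smul_mul, Matrix.mul_smul, smul_smul]

theorem aa_mul {j c : ℕ} {Ψ : GQ → Rj j} (h : b.Chr j c Ψ) {g g' : GQ} (hg : g ∈ b.Γ)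
    (hg' : g' ∈ b.Γ) : b.aa j Ψ (g * g') = b.aa j Ψ g * b.aa j Ψ g' := by
  have k : sd (ds e.δ) (g * g') = sd (ds e.δ) g * sd (ds e.δ) g' := by
    unfold sd
    rw [P004S.nu_mul]
    generalize nu (ds e.δ) g = x
    generalize nu (ds e.δ) g' = y
    revert x y
    decide
  simp only [Fld.aa, Crv.rd, h.mul g hg g' hg', k, map_mul]
  rw [← sm, ← Matrix.map_mul, smul_mul_smul_comm]

theorem aa_one {j c : ℕ} {Ψ : GQ → Rj j} (h : b.Chr j c Ψ) : b.aa j Ψ 1 = 1 := by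
  simp [Fld.aa, Crv.rd, h.ker 1 (one_mem _), sd, P004S.nu_one]

/-- the representation of the group of sequences -/
def ρ : (ℕ → b.Γ) →* M2 La where
  toFun g := um fun j => b.aa _ (s.Ψ j) (g j)
  map_one' := by
    refine (Sy.succ.um_ae (B := fun j => (1 : M2 La).map (Ideal.Quotient.mk _))
      (s.chr.mono fun j h => ?_)).trans (Sy.succ.um_const _)
    rw [Matrix.map_one _ (map_zero _) (map_one _)]
    exact aa_one h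
  map_mul' g g' := (Sy.succ.um_ae (s.chr.mono fun j h => aa_mul h (g j).2 (g' j).2)).trans
    (Sy.succ.um_mul _ _)

/-- the exact conditions at almost all levels -/
def Hs (h : ℕ → b.Γ) : Prop := ∀ᶠ j in U,
  (∀ i i', (2 : ℤ_[2]) ^ (j + 2) ∣ (e.r (h j) - 1) i i') ∧ nu (ds e.δ) (h j) = 0 ∧ s.Ψ j (h j) = 1

/-- the value of the character at the Frobenius element at two -/
def ψ : La := ur fun j => sd (ds e.δ) (b.φ 2) * s.Ψ j (b.φ 2)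

/-- the limit of the global data -/
def γ (n : ℕ) : Gl La (ℕ → b.Γ) e.σ where
  ρ := s.ρ
  H := Subgroup.closure {h | s.Hs h}
  Dv := {g | ∀ j, (g j : GQ) ∈ dec (e.P 2)}
  e g i := ur fun j => s.ε j (g j) i
  D p := {g | ∀ j, (g j : GQ) ∈ dec (e.P p)}
  N p := um fun j => Nl b (s.Ψ j) p
  bv := if ∃ v, e.Iv 2 v then 2 * s.ψ ^ 2 - e.a 2 * s.ψ + (if 2 ∣ e.N then 0 else 1) else 1
  c := n

/-- `θ` is the conjugation by `c` -/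
def Th (θ : (ℕ → b.Γ) →* (ℕ → b.Γ)) : Prop := ∀ g j, (θ g j : GQ) = b.c * g j * b.c

/-- the group theoretic fields of `Sys` -/
structure Gk (n : ℕ) (θ : (ℕ → b.Γ) →* (ℕ → b.Γ)) : Prop where
  th : Th θ
  θθ : ∀ g, θ (θ g) = g
  mem : ∀ h, h ∈ (s.γ n).H ↔ s.Hs h
  nH : (s.γ n).H.Normal
  ρH : ∀ h ∈ (s.γ n).H, s.ρ h = 1
  θH : ∀ h ∈ (s.γ n).H, θ h ∈ (s.γ n).H
  sah : ∃ z, s.ρ z = -1 ∧ ∀ g, z * g * z⁻¹ * g⁻¹ ∈ (s.γ n).H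
  spn : ∀ B, (2 : La) ^ n • B ∈ span La (range s.ρ)
  nis : ∃ g i j, ¬ X ∣ (s.ρ (θ g) - s.ρ g) i j
  gen : ∃ g, ∃ a a' : La, s.ρ g = a • 1 ∧ s.ρ (θ g) = a' • 1 ∧
    ∀ π, Prime π → π ∣ a - a' → π ∣ 2 * X
  bv0 : constantCoeff (s.γ n).bv ≠ 0
  av : ∃ A : M2 La, (∀ i, A i ∈ Au s.ρ (s.γ n).Dv) ∧ A.det ∣ 2 ^ n * (s.γ n).bv
  ap : ∀ x, ∃ E : M2 La, IsUnit E.det ∧ ∀ i, (((s.γ n).N x)ᵀ * E) i ∈ Au s.ρ ((s.γ n).D x)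

/-- a sequence of level packages -/
structure Lm (w : ℕ → ℕ → GQ → ℕ) where
  ι : Type
  [fι : Fintype ι]
  [dι : DecidableEq ι]
  r : ℕ
  k : ∀ j, Option (ι → b.Kp (j + 1) (s.C j) (s.Ψ j))
  d : ∀ j, Rw (Rj (j + 1)) e.σ ι r
  f : ∀ j, ι × Fin 2 → Ix r e.σ ι → Rj (j + 1)
  s' : ∀ j, ι × Fin 2 → Ix r e.σ ι → Rj (j + 1)
  κ : ∀ j, Finset ι → Ix r e.σ ι → Rj (j + 1)
  un : ∀ᶠ j in U, ∃ k', k j = some k' ∧ Un b (s.C j) (s.Ψ j) (s.ε j) k' (d j) ∧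
    f j = (pk b (s.C j) (s.Ψ j) (w j) k' (d j) (κ j)).f ∧
    s' j = (pk b (s.C j) (s.Ψ j) (w j) k' (d j) (κ j)).s ∧
    ∀ n : Finset ι, (d j).Rm b (s.Ψ j) *ᵥ κ j n = 0 ∧ ∀ a,
      a = (∏ i ∈ n, (w j (k' i).l (k' i).τ : Rj (j + 1))) →
      (∀ g, a • ((d j).u g *ᵥ κ j n) = s.κ j (n.image k') g) ∧
      a * ((d j).t ⬝ᵥ κ j n) = s.t j (n.image k') ∧
      ∀ p, a • ((d j).m p *ᵥ κ j n) = s.μ j (n.image k') p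

attribute [instance] Lm.fι Lm.dι

variable {s}

/-- its limit -/
def Lm.pk {w : ℕ → ℕ → GQ → ℕ} (L : s.Lm w) : Pk La (ℕ → b.Γ) e.σ :=
  { ι := L.ι, r := L.r, Q := um fun j => (L.d j).Q, l := fun p => um fun j => (L.d j).l p
    u := fun g => um fun j => (L.d j).u (g j), t := fun i => ur fun j => (L.d j).t i
    m := fun p => um fun j => (L.d j).m p, f := fun x i => ur fun j => L.f j x i
    s := fun x i => ur fun j => L.s' j x i, κ := fun n i => ur fun j => L.κ j n i }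

end Sq

/-- odd weights -/
def Wt (w : ℕ → ℕ → GQ → ℕ) : Prop := ∀ j l P τ, Ov l P → l ≠ 2 → Gn l P τ → Odd (w j l τ)

/-- the sequence exists -/
def SQX : Prop := ∀ (e : Crv) (b : Fld e), b.Anc → Nonempty (Sq b)

def GLB : Prop := ∀ (e : Crv) (b : Fld e) (s : Sq b), ∃ n θ, s.c₀ ≤ n ∧ s.Gk n θ

/-- the factor in the reciprocity law -/
def ETA : Prop := ∀ (e : Crv) (b : Fld e) (s : Sq b) (π : La), Prime π → ¬ π ∣ 2 →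
  ∃ η : ∀ j, Rj (j + 1), ¬ π ∣ ur η ∧ ∀ᶠ j in U, Va b (s.C j) (s.Ψ j) (η j)

/-- every sequence of families has a package -/
def LMX : Prop := ∀ (e : Crv) (b : Fld e) (s : Sq b) w, Wt w → ∀ (ι : Type) [Fintype ι]
  [DecidableEq ι] (k : ∀ j, Option (ι → b.Kp (j + 1) (s.C j) (s.Ψ j))),
  (∀ᶠ j in U, ∃ k', k j = some k' ∧ Function.Injective fun i => (k' i).l) →
  ∃ r d f s' κ un, (⟨ι, r, k, d, f, s', κ, un⟩ : s.Lm w).r = r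

def LOK : Prop := ∀ (e : Crv) (b : Fld e) (s : Sq b) w n θ, Wt w → s.c₀ ≤ n → s.Gk n θ →
  ∀ L : s.Lm w, L.pk.Ok (s.γ n)

def LIS : Prop := ∃ w, Wt w ∧ ∀ (e : Crv) (b : Fld e) (s : Sq b) n (π : La), Prime π → ¬ π ∣ 2 →
  ∃ η, ¬ π ∣ η ∧ ∀ L : s.Lm w, L.pk.Iso (s.γ n) η

def LEX : Prop := ∀ (e : Crv) (b : Fld e) (s : Sq b) w n θ, Wt w → s.Gk n θ → ∀ L : s.Lm w,
  ∀ h ∈ (s.γ n).H, ∃ L' : s.Lm w, Nonempty (L.pk.Ext (s.γ n) L'.pk (θ h * h))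

def NUM : Prop := ∀ (e : Crv) (b : Fld e) (s : Sq b) w n (L : s.Lm w), IsEmpty L.ι →
  map PadicInt.toZMod (L.pk.Mx (s.γ n)).det ≠ 0 ∧
  X ^ (2 * s.l) ∣ map PadicInt.toZMod (L.pk.Mx (s.γ n)).det ∧
  ¬ X ^ (s.l + 1) ∣ map PadicInt.toZMod (L.pk.t ⬝ᵥ L.pk.κ ∅) ∧
  (b.Tor → constantCoeff (L.pk.t ⬝ᵥ L.pk.κ ∅) = 0)

def RK1 : Prop := ∀ (e : Crv) (b : Fld e) (s : Sq b) w n (L : s.Lm w), IsEmpty L.ι →
  ¬ TwoK e.rp (e.P 2) (ds e.δ) (-b.δ') → ∀ y y' : L.pk.I → ℤ_[2],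
  (L.pk.Mx (s.γ n)).map constantCoeff *ᵥ y = 0 → (L.pk.Mx (s.γ n)).map constantCoeff *ᵥ y' = 0 →
  ∃ a b : ℤ_[2], ¬ (a = 0 ∧ b = 0) ∧ a • y + b • y' = 0

theorem pat (h1 : SQX) (h2 : GLB) (h3 : LMX) (h4 : LOK) (h5 : LIS) (h6 : LEX) (h7 : NUM)
    (h8 : RK1) : PAT := by
  intro e b ha
  obtain ⟨s⟩ := h1 e b ha
  obtain ⟨n, θ, hn, g⟩ := h2 e b s
  obtain ⟨w, hw, hi⟩ := h5
  obtain ⟨r, d, f, s', κ, un, -⟩ := h3 e b s w hw Empty (fun _ => some fun i => i.elim)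
    (.of_forall fun j => ⟨_, rfl, fun i => i.elim⟩)
  let o : s.Lm w := ⟨Empty, r, _, d, f, s', κ, un⟩
  have ho : IsEmpty o.ι := inferInstanceAs (IsEmpty Empty)
  obtain ⟨n1, n2, n3, n4⟩ := h7 e b s w n o ho
  refine ⟨⟨ℕ → b.Γ, e.σ, s.γ n, θ, g.θθ, g.nH, g.ρH, g.θH, g.sah, g.spn, g.nis, g.gen, g.bv0, g.av,
    g.ap, s.gs, s.is, s.gv, s.β, s.βe, s.β0, s.sep, range Sq.Lm.pk, ?_, fun π a a' => ?_, ?_, o.pk,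
    ⟨o, rfl⟩, ho, s.l, n1, n2, n3⟩, h8 e b s w n o ho, n4⟩
  · rintro _ ⟨L, rfl⟩
    exact h4 e b s w n θ hw hn g L
  · obtain ⟨η, k1, k2⟩ := hi e b s n π a a'
    exact ⟨η, k1, by rintro _ ⟨L, rfl⟩; exact k2 L⟩
  · rintro _ ⟨L, rfl⟩ h hh
    obtain ⟨L', k⟩ := h6 e b s w n θ hw g L h hh
    exact ⟨_, ⟨L', rfl⟩, k⟩

end Vale.Agent.P004F.Pa
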