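import Vale.Agent.P004F.St

/-! # P004F (FRAME), block PAT: the presentation with one free, some strict and some tame places -/

set_option linter.all false

open NumberField Matrix Submodule Set Sum
open scoped Pointwise

noncomputable section

namespace Vale.Agent.P004F.Pa.Lv

open Vale.Agent.P022
open Vale.Agent.P022D.W (dec)
open Vale.Agent.P022E.GW (Ov)
open Pr (ac Gd Zs)

variable {R : Type} [CommRing R] {M : Type} [AddCommGroup M] [Module R M]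

section alg

variable {s μ ν : Type} [Fintype μ]

theorem ac_mul [Fintype ν] (A : Matrix s ν R) (B : Matrix ν μ R) (x : μ → M) :
    ac (A * B) x = ac A (ac B x) := funext fun i => by
  simp only [ac, Matrix.mul_apply, Finset.sum_smul, Finset.smul_sum, smul_smul]
  exact Finset.sum_comm

variable (R) in
/-- the matrix which selects coordinates -/
def sel [DecidableEq μ] (f : s → μ) : Matrix s μ R := .of fun i k => if f i = k then 1 else 0

theorem ac_sel [DecidableEq μ] (f : s → μ) (y : μ → M) : ac (sel R f) y = y ∘ f :=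
  funext fun i => by simp [ac, sel]

theorem sel_mul [DecidableEq μ] (f : s → μ) (w : Matrix μ ν R) : sel R f * w = w.submatrix f id :=
  Matrix.ext fun i k => by rw [Matrix.mul_apply]; simp [sel]

theorem ac_sub [Fintype ν] (e : ν ≃ μ) (A : Matrix s μ R) (y : ν → M) :
    ac (A.submatrix id e) y = ac A (y ∘ e.symm) := funext fun i => by
  simp only [ac, submatrix_apply, id, Function.comp_apply]
  exact Fintype.sum_equiv e _ _ fun j => by rw [e.symm_apply_apply]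

theorem ac_fst [Fintype ν] [DecidableEq μ] (x : μ ⊕ ν → M) :
    ac (fromCols (1 : Matrix μ μ R) (0 : Matrix μ ν R)) x = x ∘ inl :=
  funext fun i => by simp [ac, Matrix.one_apply]

theorem ac_snd [Fintype ν] [DecidableEq ν] (x : μ ⊕ ν → M) :
    ac (fromCols (0 : Matrix ν μ R) (1 : Matrix ν ν R)) x = x ∘ inr :=
  funext fun i => by simp [ac, Matrix.one_apply]

/-- the universal point -/
theorem ac_mk [DecidableEq μ] (L : Submodule R (μ → R)) (E : Matrix s μ R) :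
    ac E (fun a => L.mkQ (Pi.single a 1)) = fun i => L.mkQ (E i) := funext fun i => by
  simp only [ac, ← map_smul, ← map_sum]
  refine congrArg _ ((Finset.sum_congr rfl fun a _ => ?_).trans (Finset.univ_sum_single (E i)))
  simp [← Pi.single_smul]

end alg

abbrev F4 : Type := Fin 2 ⊕ Fin 2

/-- a tame place with its local presentation -/
structure Tp (Γ : Subgroup GQ) (a : GQ → M2 R) (P : Ideal (𝓞 Qb)) (φ τ : GQ)
    (N : Matrix (Fin 2) F4 R) (b : GQ → Matrix (Fin 2) F4 R) : Prop where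
  hφ : φ ∈ Γ ⊓ dec P
  hτ : τ ∈ Γ ⊓ dec P
  coc : ∀ g ∈ Γ ⊓ dec P, ∀ h ∈ Γ ⊓ dec P, ∃ β : M2 R, b (g * h) = b g + a g * b h + β * N
  lc : ∃ W : Subgroup GQ, IsOpen (W : Set GQ) ∧ ∀ g ∈ Γ ⊓ dec P, ∀ w ∈ Γ ⊓ dec P, w ∈ W →
    b (g * w) = b g
  bφ : b φ = fromCols 1 0
  bτ : b τ = fromCols 0 1
  un : ∀ (M : Type) [AddCommGroup M] [Module R M] (x : GQ → Fin 2 → M),
    (∀ g ∈ Γ ⊓ dec P, ∀ h ∈ Γ ⊓ dec P, x (g * h) = x g + ac (a g) (x h)) →
    (∃ W : Subgroup GQ, IsOpen (W : Set GQ) ∧ ∀ w ∈ Γ ⊓ dec P, w ∈ W → x w = 0) →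
    ac N (Sum.elim (x φ) (x τ)) = 0 ∧ ∀ g ∈ Γ ⊓ dec P, x g = ac (b g) (Sum.elim (x φ) (x τ))

theorem Tp.det {Γ : Subgroup GQ} {a : GQ → M2 R} {P : Ideal (𝓞 Qb)} {φ τ : GQ}
    {N : Matrix (Fin 2) F4 R} {b : GQ → Matrix (Fin 2) F4 R} (h : Tp Γ a P φ τ N b)
    {x : GQ → Fin 2 → M} {z : F4 → M} (e : ∀ g ∈ Γ ⊓ dec P, x g = ac (b g) z) :
    z = Sum.elim (x φ) (x τ) := by
  rw [e _ h.hφ, e _ h.hτ, h.bφ, h.bτ, ac_fst, ac_snd]
  exact funext fun i => i.rec (fun _ => rfl) fun _ => rfl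

variable {σ ι : Type} [Fintype σ] [DecidableEq σ] [Fintype ι] [DecidableEq ι]

variable (σ ι) in
/-- the parameters -/
abbrev Mu : Type := Unit ⊕ (σ × Fin 2) ⊕ (σ ⊕ ι) × F4

def f1 : Unit → Mu σ ι := inl

def f2 (p : σ) (i : Fin 2) : Mu σ ι := inr (inl (p, i))

def f3 (x : σ ⊕ ι) (i : F4) : Mu σ ι := inr (inr (x, i))

/-- the local conditions -/
def bl (a : GQ → M2 R) (ε : GQ → Fin 2 → R) (b : σ ⊕ ι → GQ → Matrix (Fin 2) F4 R) :
    Unit ⊕ σ ⊕ σ ⊕ ι → GQ → Matrix (Fin 2) (Mu σ ι) R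
  | inl _, g => replicateCol Unit (ε g) * sel R f1
  | inr (inl p), g => (a g - 1) * sel R (f2 p)
  | inr (inr x), g => b x g * sel R (f3 x)

/-- the relations -/
def nl (N : σ ⊕ ι → Matrix (Fin 2) F4 R) : Matrix (σ × Fin 2) (Mu σ ι) R :=
  .of fun x => (N (inl x.1) * sel R (f3 (inl x.1))) x.2

theorem ac_nl {N : σ ⊕ ι → Matrix (Fin 2) F4 R} {z : Mu σ ι → M} :
    ac (nl N) z = 0 ↔ ∀ p, ac (N (inl p)) (z ∘ f3 (inl p)) = 0 := by
  simp only [← ac_sel (R := R), ← ac_mul]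
  exact ⟨fun h p => funext fun i => congrFun h (p, i), fun h => funext fun x => congrFun (h x.1) x.2⟩

theorem ac_col (v : Fin 2 → R) (z : Unit → M) (i : Fin 2) :
    ac (replicateCol Unit v) z i = v i • z () := by simp [ac]

/-- the framed cocycles -/
def Sl (M : Type) [AddCommGroup M] [Module R M] (Γ : Subgroup GQ) (T : Finset ℕ) (a : GQ → M2 R)
    (ε : GQ → Fin 2 → R) (P : Unit ⊕ σ ⊕ σ ⊕ ι → Ideal (𝓞 Qb)) :
    Set ((GQ → Fin 2 → M) × M × (σ → Fin 2 → M)) :=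
  {x | Cc Γ T a x.1 ∧ (∀ g ∈ Γ ⊓ dec (P (inl ())), ∀ i, x.1 g i = ε g i • x.2.1) ∧
    ∀ p, ∀ g ∈ Γ ⊓ dec (P (inr (inl p))), x.1 g = ac (a g - 1) (x.2.2 p)}

variable {Γ : Subgroup GQ} {T : Finset ℕ} {a : GQ → M2 R} {ε : GQ → Fin 2 → R}
  {P : Unit ⊕ σ ⊕ σ ⊕ ι → Ideal (𝓞 Qb)} {φ τ : σ ⊕ ι → GQ} {N : σ ⊕ ι → Matrix (Fin 2) F4 R}
  {b : σ ⊕ ι → GQ → Matrix (Fin 2) F4 R}

theorem zs3 (ht : ∀ x, Tp Γ a (P (inr (inr x))) (φ x) (τ x) (N x) (b x))
    {x : (GQ → Fin 2 → M) × (Mu σ ι → M)} (h : x ∈ Zs M Γ T a P (bl a ε b)) (y : σ ⊕ ι) :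
    x.2 ∘ f3 y = Sum.elim (x.1 (φ y)) (x.1 (τ y)) :=
  (ht y).det fun g hg => by rw [h.2.2.2.2 (inr (inr y)) g hg, bl, ac_mul, ac_sel]

theorem bij_pr (ht : ∀ x, Tp Γ a (P (inr (inr x))) (φ x) (τ x) (N x) (b x)) :
    BijOn (fun x : (GQ → Fin 2 → M) × (Mu σ ι → M) => (x.1, x.2 (f1 ()), fun p => x.2 ∘ f2 p))
      {x | x ∈ Zs M Γ T a P (bl a ε b) ∧ ac (nl N) x.2 = 0} (Sl M Γ T a ε P) := by
  refine ⟨fun x h => ⟨⟨h.1.1, h.1.2.1, h.1.2.2.1, h.1.2.2.2.1⟩, fun g hg i => ?_, fun p g hg => ?_⟩,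
    fun x h y k e => ?_, fun x h => ?_⟩
  · exact (congrFun (h.1.2.2.2.2 (inl ()) g hg) i).trans (by rw [bl, ac_mul, ac_sel, ac_col]; rfl)
  · exact (h.1.2.2.2.2 (inr (inl p)) g hg).trans (by rw [bl, ac_mul, ac_sel])
  · obtain ⟨e1, e2⟩ := Prod.ext_iff.1 e
    obtain ⟨e2, e3⟩ := Prod.ext_iff.1 e2
    refine Prod.ext e1 (funext ?_)
    rintro (_ | ⟨p, i⟩ | ⟨z, i⟩)
    · exact e2
    · exact congrFun (congrFun e3 p) i
    · have := zs3 ht h.1 z
      rw [show x.1 = y.1 from e1, ← zs3 ht k.1 z] at this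
      exact congrFun this i
  · obtain ⟨h1, h2, h3⟩ := h
    have k := fun y => (ht y).un M x.1 (fun g hg g' hg' => h1.coc g hg.1 g' hg'.1)
      (h1.lc.imp fun W m => ⟨m.1, fun w _ => m.2 w⟩)
    refine ⟨(x.1, Sum.elim (fun _ => x.2.1) (Sum.elim (fun y => x.2.2 y.1 y.2)
      fun y => Sum.elim (x.1 (φ y.1)) (x.1 (τ y.1)) y.2)),
      ⟨⟨h1.coc, h1.out, h1.lc, h1.unr, ?_⟩, ac_nl.2 fun p => (k _).1⟩, rfl⟩
    rintro (_ | p | y) g hg
    · exact funext fun i => by rw [bl, ac_mul, ac_sel, ac_col]; exact h2 g hg i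
    · rw [bl, ac_mul, ac_sel]; exact h3 p g hg
    · rw [bl, ac_mul, ac_sel]; exact (k y).2 g hg

theorem core (hP : PRESN) [IsLocalRing R] [Finite R] (π : R →+* ZMod 2) (G : Gd Γ T a)
    (ht : ∀ x, Tp Γ a (P (inr (inr x))) (φ x) (τ x) (N x) (b x)) (h0 : ∀ i, N (inr i) = 0)
    (ov : ∀ i, ∃ l ∈ T, Ov l (P i)) (un : ∀ i j, ∀ g ∈ Γ, P j = g • P i → i = j)
    (two : ∃ i, Ov 2 (P i) ∧ dec (P i) ≤ Γ ∧ ∀ j, Ov 2 (P j) → j = i)
    (coc : ∀ g ∈ dec (P (inl ())), ∀ h ∈ dec (P (inl ())), ε (g * h) = ε g + a g *ᵥ ε h)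
    (lc : ∃ W : Subgroup GQ, IsOpen (W : Set GQ) ∧ ∀ w ∈ W, w ∈ dec (P (inl ())) → ε w = 0)
    (rel : ∃ l ∈ T, l ≠ 2 ∧ ∃ Q, Ov l Q ∧ dec Q ≤ Γ ∧ (∀ g ∈ dec Q, (a g).map π = 1) ∧
      ∀ i, ∀ g ∈ Γ, Q ≠ g • P i) {C : ℕ}
    (bd : ∀ b' : _ → _ → Matrix (Fin 2) (Mu σ ι) (ZMod 2),
      Nat.card (Zs (ZMod 2) Γ T (fun g => (a g).map π) P b') ≤ 2 ^ C) :
    ∃ r ≤ C + Fintype.card σ * 2, ∃ (Q : Matrix (Fin r) (Ix r σ ι) R)
      (l : σ → Matrix F4 (Ix r σ ι) R) (u : GQ → Matrix (Fin 2) (Ix r σ ι) R) (t : Ix r σ ι → R)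
      (m : σ → Matrix (Fin 2) (Ix r σ ι) R),
      ∀ Rm, Rm = Matrix.of (Sum.elim Q fun x : σ × Fin 2 => (N (inl x.1) * l x.1) x.2) →
      (∀ (M : Type) [AddCommGroup M] [Module R M],
        BijOn (fun y : Ix r σ ι → M => (fun g => ac (u g) y, ∑ i, t i • y i, fun p => ac (m p) y))
          {y | ac Rm y = 0} (Sl M Γ T a ε P)) ∧
      ∀ p i, l p i - Sum.elim (u (φ (inl p))) (u (τ (inl p))) i ∈ span R (range Rm) := by
  refine (hP R π (Mu σ ι) (σ × Fin 2) _ Γ T a P (bl a ε b) (nl N) G ov un two ?_ ?_ rel).elim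
    fun g ⟨r, Q, u, w, h1, h2, h3⟩ => ?_
  rotate_right
  · have c1 : Fintype.card (Ix r σ ι) = Fintype.card (Fin g) := by
      simp only [Fintype.card_sum, Fintype.card_prod, Fintype.card_fin, Fintype.card_unit,
        Fintype.card_option] at h3 ⊢
      omega
    have c2 : g ≤ C + Fintype.card σ * 2 := by
      rw [← Nat.pow_le_pow_iff_right one_lt_two, pow_add]
      refine h2.trans ?_
      rw [Fintype.card_prod, Fintype.card_fin]
      exact Nat.mul_le_mul_right _ (bd _)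
    let e := Fintype.equivOfCardEq c1
    refine ⟨r, ?_, Q.submatrix id e, fun p => w.submatrix (f3 (inl p)) e, fun γ => (u γ).submatrix id e,
      fun i => w (f1 ()) (e i), fun p => w.submatrix (f2 p) e, fun Rm hR => ?_⟩
    · simp only [Fintype.card_sum, Fintype.card_prod, Fintype.card_fin] at c1
      omega
    have k0 : ∀ (M : Type) [AddCommGroup M] [Module R M] (y : Ix r σ ι → M),
        ac Rm y = 0 ↔ ac Q (y ∘ e.symm) = 0 ∧ ac (nl N * w) (y ∘ e.symm) = 0 := fun M _ _ y => by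
      have : ∀ p, ac (N (inl p) * w.submatrix (f3 (inl p)) e) y =
          ac (N (inl p)) (ac w (y ∘ e.symm) ∘ f3 (inl p)) := fun p => by
        rw [ac_mul, ← ac_sub]; rfl
      rw [ac_mul, ac_nl, ← ac_sub, hR]
      simp only [← this]
      exact ⟨fun h => ⟨funext fun i => congrFun h (inl i), fun p => funext fun i =>
        congrFun h (inr (p, i))⟩, fun h => funext fun i => i.rec (congrFun h.1)
          fun x => congrFun (h.2 x.1) x.2⟩
    have k2 : ∀ (M : Type) [AddCommGroup M] [Module R M] (y : Ix r σ ι → M) (s : Type) (f : s → _),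
        ac (w.submatrix f e) y = ac w (y ∘ e.symm) ∘ f := fun M _ _ y s f => by
      rw [← ac_sub]; rfl
    refine ⟨fun M _ _ => ?_, fun p i => ?_⟩
    · have k1 : BijOn (fun y : Ix r σ ι → M => y ∘ e.symm) {y | ac Rm y = 0}
          {y | ac Q y = 0 ∧ ac (nl N * w) y = 0} :=
        ⟨fun y h => (k0 M y).1 h, fun y _ y' _ h => e.symm.surjective.injective_comp_right h,
          fun z h => by
            have : (z ∘ e) ∘ e.symm = z := funext fun i => by simp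
            exact ⟨z ∘ e, (k0 M _).2 (this.symm ▸ h), this⟩⟩
      refine ((bij_pr ht).comp ((h1 M).comp k1)).congr fun y _ => Prod.ext
        (funext fun γ => (ac_sub e _ y).symm) (Prod.ext ?_ (funext fun p => (k2 M y _ _).symm))
      exact (congrFun (k2 M y _ f1) ()).symm
    · have k3 := ac_mk (span R (range Rm)) Rm
      have k4 := zs3 ht ((h1 _).mapsTo ((k0 _ _).1 (k3.trans (funext fun i =>
        (Submodule.Quotient.mk_eq_zero _).2 (subset_span ⟨i, rfl⟩))))).1 (inl p)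
      simp only [← k2, ← ac_sub, ac_mk] at k4
      refine (Submodule.Quotient.eq _).1 ((congrFun k4 i).trans ?_)
      rcases i with i | i <;> rfl
  · rintro (_ | p | x) g hg h hh
    · refine ⟨0, ?_⟩
      rw [Matrix.zero_mul, add_zero, bl, bl, bl, coc g hg.2 h hh.2, ← Matrix.mul_assoc,
        ← Matrix.add_mul, replicateCol_add, replicateCol_mulVec]
    · refine ⟨0, ?_⟩
      rw [Matrix.zero_mul, add_zero, bl, bl, bl, G.mul g hg.1 h hh.1, ← Matrix.mul_assoc,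
        ← Matrix.add_mul]
      refine congrArg (· * _) ?_
      noncomm_ring
    · obtain ⟨β, e⟩ := (ht x).coc g hg h hh
      rw [bl, bl, bl, e, Matrix.add_mul, Matrix.add_mul, Matrix.mul_assoc, Matrix.mul_assoc]
      rcases x with p | i
      · exact ⟨β * sel R fun i : Fin 2 => (p, i), by rw [Matrix.mul_assoc, sel_mul]; rfl⟩
      · exact ⟨0, by rw [h0, Matrix.zero_mul, Matrix.mul_zero, Matrix.zero_mul]⟩
  · rintro (_ | p | x)
    · obtain ⟨W, hW, e⟩ := lc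
      exact ⟨W, hW, fun g hg w hw m => by
        rw [bl, bl, coc g hg.2 w hw.2, e w m hw.2, mulVec_zero, add_zero]⟩
    · obtain ⟨W, hW, e⟩ := G.lc
      exact ⟨W, hW, fun g hg w hw m => by rw [bl, bl, G.mul g hg.1 w hw.1, e w hw.1 m, mul_one]⟩
    · obtain ⟨W, hW, e⟩ := (ht x).lc
      exact ⟨W, hW, fun g hg w hw m => by rw [bl, bl, e g hg w hw m]⟩

end Vale.Agent.P004F.Pa.Lv
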