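import Vale.Agent.P004F.Pa.St
import Vale.Agent.P004F.Pa.Lev0
import Vale.Agent.P004F.Ra.Lv

/-! # P004F (FRAME), block PAT: the row `LEV` -/

set_option linter.all false

open NumberField Matrix Submodule Set Sum
open scoped Classical Pointwise

noncomputable section

namespace Vale.Agent.P004F.Pa

open Vale.Agent.P022 Vale.Agent.P022K
open Vale.Agent.P004K (RC1 RC2)
open Vale.Agent.P027M.S (Inert)
open Vale.Agent.P022D.W (dec inP_le_dec phi_mem)
open Vale.Agent.P022E.GW (Ov Fb Gn)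
open P004T (ds)
open Pr (ac Gd Zs BND)
open Pat (rk)

namespace Lv

variable {R : Type} [CommRing R] {Γ : Subgroup GQ} {T : Finset ℕ} {a : GQ → M2 R} {l : ℕ}
  {P : Ideal (𝓞 Qb)} {φ τ : GQ}

theorem tp_of [Finite R] (hL : LOCT) {k : ℕ} (h2 : (2 : R) ^ k = 0) (G : Gd Γ T a) (f : ℕ)
    (ho : Ov l P) (hl : l ≠ 2) (hf : 0 < f) (fb : Fb l P φ) (gn : Gn l P τ)
    (hI : ∀ g, Inert P g → g ∈ Γ) (hφ : ∀ i : ℕ, φ ^ i ∈ Γ ↔ f ∣ i)
    (ord : ∀ g, Inert P g → ∃ n : ℕ, a g ^ 2 ^ n = 1) :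
    ∃ b, Tp Γ a P (φ ^ f) τ (Nt (a (φ ^ f)) (a τ) (l ^ f)) b := by
  obtain ⟨b, b1, b2, b3, b4, b5⟩ := hL R k h2 Γ l f P φ τ a ho hl hf fb gn hI hφ G.opn G.one
    (fun g m j n => G.mul g m.1 j n.1) (G.lc.imp fun W k => ⟨k.1, fun w m => k.2 w m.1⟩) ord
  exact ⟨b, ⟨(hφ f).2 dvd_rfl, pow_mem (phi_mem ho.1 ho.2.1 fb) f⟩, ⟨hI τ gn.1, inP_le_dec gn.1⟩,
    b1, b2, b3, b4, b5⟩

theorem ov_eq {l' : ℕ} (h : Ov l P) (h' : Ov l' P) : l = l' :=
  (Nat.prime_dvd_prime_iff_eq h.1 h'.1).1 (by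
    exact_mod_cast P004S.ov_dvd h (a := l') (by exact_mod_cast h'.2.2))

theorem fb_cj (f : Fb l P φ) (g : GQ) : Fb l (g • P) (g * φ * g⁻¹) := fun x => by
  rw [Ideal.mem_pointwise_smul_iff_inv_smul_mem, smul_sub, mul_smul, mul_smul, inv_smul_smul,
    smul_pow']
  exact f _

theorem in_cj (f : Inert P τ) (g : GQ) : Inert (g • P) (g * τ * g⁻¹) := fun x => by
  rw [Ideal.mem_pointwise_smul_iff_inv_smul_mem, smul_sub, mul_smul, mul_smul, inv_smul_smul]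
  exact f _

theorem gn_cj (f : Gn l P τ) (g : GQ) : Gn l (g • P) (g * τ * g⁻¹) :=
  ⟨in_cj f.1 g, fun w hw => by
    rw [AlgEquiv.mul_apply, AlgEquiv.mul_apply, f.2 _ (by rw [← map_pow, hw, map_natCast]), map_neg,
      ← AlgEquiv.mul_apply, mul_inv_cancel, AlgEquiv.one_apply]⟩

theorem unip {x : M2 R} (h : (x - 1) ^ 2 = 0) (k : ℕ) : x ^ k = 1 + (k : R) • (x - 1) := by
  induction k with
  | zero => simp
  | succ k ih =>
    have : (x - 1) * x = x - 1 := by rw [← sub_eq_zero, ← h]; noncomm_ring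
    rw [pow_succ, ih, add_mul, smul_mul_assoc, this, Nat.cast_succ, add_smul, one_smul, one_mul]
    abel

theorem ord {x : M2 R} (h : (x - 1) ^ 2 = 0) {u : R} {n : ℕ} (hu : u ^ 2 ^ n = 1)
    (h2 : (2 : R) ^ n = 0) : (u • x) ^ 2 ^ n = 1 := by
  rw [smul_pow, unip h, hu, one_smul, Nat.cast_pow, Nat.cast_ofNat, h2, zero_smul, add_zero]

theorem zs_congr {μ κ M : Type} [Fintype μ] [AddCommGroup M] [Module R M] {a' : GQ → M2 R}
    {P : κ → Ideal (𝓞 Qb)} {b : κ → GQ → Matrix (Fin 2) μ R} (h : ∀ g ∈ Γ, a g = a' g) :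
    Zs M Γ T a P b = Zs M Γ T a' P b :=
  Submodule.ext fun x => and_congr_left' (forall₂_congr fun g m => by rw [h g m])

theorem par (G : Gd Γ T a) (h : φ ∉ Γ) (i : ℕ) : φ ^ i ∈ Γ ↔ 2 ∣ i := by
  obtain ⟨m, rfl | rfl⟩ := i.even_or_odd'
  · exact iff_of_true (by rw [pow_mul]; exact pow_mem (Ra.sq_mem G φ) m) (dvd_mul_right _ _)
  · rw [pow_succ, pow_mul, Subgroup.mul_mem_cancel_left _ (pow_mem (Ra.sq_mem G φ) m)]
    exact iff_of_false h (by omega)

variable {e : Crv} {b : Fld e} {j c : ℕ}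

theorem res {Ψ : GQ → Rj (j + 1)} {g : GQ} (h : rk j (Ψ g) = 1) :
    (b.aa (j + 1) Ψ g).map (rk j) = (e.r g).map PadicInt.toZMod := by
  have k : ((sd (ds e.δ) g : ℤ) : ZMod 2) = 1 := by unfold sd; split <;> decide
  ext i i'
  rw [Ra.aa_eq, map_apply, Matrix.smul_apply, smul_eq_mul, map_mul, map_mul, h, map_intCast, k,
    one_mul, one_mul, Ra.rj_apply, map_apply, map_apply]
  exact congrArg (PadicInt.toZMod (p := 2)) (PowerSeries.constantCoeff_C _)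

theorem gd0 (r1 : RC1) (r2 : RC2) (b : Fld e) :
    Gd b.Γ e.S.toFinset fun g => (e.r g).map PadicInt.toZMod := by
  have G := Ra.gd (b := b) (j := 1) (c := 1) (Ψ := fun _ => 1) r1 r2 ⟨squarefree_one, by simp,
    fun _ _ _ _ => (mul_one _).symm, fun _ _ => rfl, fun _ _ => one_pow _⟩ (T := e.S.toFinset)
    (by simp [Fld.T]) fun l h => Ra.S_prime (List.mem_toFinset.1 h)
  have k : ∀ g, b.aa 1 (fun _ => 1) g = 1 → (e.r g).map PadicInt.toZMod = 1 := fun g h => by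
    rw [← res (b := b) (j := 0) (Ψ := fun _ => 1) (map_one _), h]
    exact Matrix.map_one _ (map_zero _) (map_one _)
  exact ⟨G.opn, G.idx, G.cx, G.two, G.pr, k 1 G.one, fun g _ h _ => by rw [map_mul, Matrix.map_mul],
    G.lc.imp fun W h => ⟨h.1, fun w m m' => k w (h.2 w m m')⟩, fun g m i => k g (G.unr g m i)⟩

theorem sig (p : e.σ) : p.1 ∈ e.S ∧ p.1 ≠ 2 :=
  ⟨List.mem_of_mem_filter (List.mem_toFinset.1 (Finset.mem_filter.1 p.2).1),
    (Finset.mem_filter.1 p.2).2.1⟩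

theorem tp1 (hL : LOCT) (hU : UNI) {Ψ : GQ → Rj j} (h : b.Chr j c Ψ) (G : Gd b.Γ T (b.aa j Ψ))
    (p : e.σ) : ∃ β, Tp b.Γ (b.aa j Ψ) (b.c • e.P p) (b.c * b.φ p * b.c) (b.c * e.τ p * b.c)
      (Nl b Ψ p) β := by
  obtain ⟨h1, h2⟩ := sig p
  have le : dec (b.c • e.P p) ≤ b.Γ := fun g m => by
    have := Ra.dec_cj (g := b.c) m
    rw [inv_smul_smul] at this
    simpa [mul_assoc] using (Ra.nrm G).conj_mem _ (b.le p h1 this) b.c
  have fb := fb_cj (l := p) (b.ch.frb p h1) b.c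
  have ho := GW.ov_smul (e.ov p h1) b.c
  have := tp_of hL (Ra.two_Rj j) G 1 ho h2 one_pos fb (gn_cj (e.gn p h1 h2) b.c)
    (fun g m => le (inP_le_dec m))
    (fun i => iff_of_true (pow_mem (le (phi_mem ho.1 ho.2.1 fb)) i) (one_dvd i)) fun g m => ?_
  · simp only [pow_one, Ra.c_inv] at this
    exact this
  have u := (hU e p p.2 _ (by simpa using in_cj m b.c⁻¹)).1
  have v : (Ra.rj e j g - 1) ^ 2 = 0 := by
    have w : Ra.rj e j g - 1 = Ra.rj e j b.c * (RingHom.mapMatrix (cj j))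
        (e.r (b.c⁻¹ * g * b.c) - 1) * Ra.rj e j b.c⁻¹ := by
      rw [map_sub, map_one, mul_sub, sub_mul, mul_one, ← map_mul, mul_inv_cancel, map_one]
      refine congrArg (· - 1) ?_
      change _ = _ * Ra.rj e j _ * _
      rw [← map_mul, ← map_mul]
      exact congrArg _ (by group)
    rw [w, sq, mul_assoc, mul_assoc, ← mul_assoc (Ra.rj e j b.c⁻¹), ← mul_assoc (Ra.rj e j b.c⁻¹),
      ← map_mul, inv_mul_cancel, map_one, one_mul, ← mul_assoc (RingHom.mapMatrix _ _), ← map_mul,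
      ← sq, u, map_zero, zero_mul, mul_zero]
  refine ⟨2 * j + 1, ?_⟩
  rw [Ra.aa_eq]
  refine ord v ?_ (pow_eq_zero_of_le (by omega) (Ra.two_Rj j))
  rw [mul_pow, pow_succ 2, pow_mul, h.ord g (le (inP_le_dec m)), one_pow, one_mul, mul_comm, pow_mul,
    sq, ← Int.cast_mul, Ra.sd_sq, Int.cast_one, one_pow]

theorem tp2 (hL : LOCT) (r1 : RC1) (r2 : RC2) {Ψ : GQ → Rj j} (h : b.Chr j c Ψ)
    (G : Gd b.Γ T (b.aa j Ψ)) (k : b.Kp j c Ψ) : ∃ β, Tp b.Γ (b.aa j Ψ) k.P (k.φ ^ 2) k.τ 0 β := by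
  have K := Ra.kl k r1 r2 h
  have := tp_of hL (Ra.two_Rj j) G 2 K.ov K.ne two_pos K.fb K.gn (fun g m => K.ur m) (par G K.out)
    fun g m => ⟨0, by rw [K.ine g m, one_pow]⟩
  have e1 : ((k.l ^ 2 : ℕ) : Rj j) = 1 := by
    obtain ⟨y, hy⟩ := K.dv
    have : (k.l : Rj j) + 1 = 0 := by
      rw [← Nat.cast_succ, Nat.succ_eq_add_one, hy, Nat.cast_mul, Nat.cast_pow, Nat.cast_ofNat,
        Ra.two_Rj', zero_mul]
    rw [Nat.cast_pow]
    linear_combination ((k.l : Rj j) - 1) * this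
  rwa [K.sq, K.ine _ K.gn.1, show Nt (1 : M2 (Rj j)) 1 (k.l ^ 2) = 0 by
    rw [Nt, one_pow, sub_self, Finset.sum_congr rfl fun i _ => one_pow i, Finset.sum_const,
      Finset.card_range, ← Nat.cast_smul_eq_nsmul (Rj j), e1, one_smul, sub_self, fromCols_zero]] at this

end Lv

open Lv in
theorem lev (hP : PRESN) (hL : LOCT) (hB : BND) (hU : UNI) (r1 : RC1) (r2 : RC2) : LEV := by
  intro e b m n
  obtain ⟨C, hC⟩ := hB (Fin 2) _ _ _ (gd0 r1 r2 b)
  refine ⟨C + (1 + (Fintype.card e.σ * 2 + (Fintype.card e.σ + n) * 4)) + 4 * (m + n) +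
    Fintype.card e.σ * 2, fun j c Ψ ε h hε hΨ hm ⟨q, hq, Q, q1, q2, q3⟩ ι _ _ k hn inj => ?_⟩
  have hS : ∀ p ∈ e.S, p ∈ b.T c := fun p m => Finset.mem_union_left _ (List.mem_toFinset.2 m)
  have hT : b.T c ⊆ Tk b c Ψ k := Finset.subset_union_left
  have hk : ∀ i, (k i).l ∈ Tk b c Ψ k := fun i =>
    Finset.mem_union_right _ (Finset.mem_image_of_mem _ (Finset.mem_univ i))
  have pr : ∀ l ∈ Tk b c Ψ k, l.Prime := fun l m => (Finset.mem_union.1 m).elim Ra.T_prime fun m => by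
    obtain ⟨i, -, rfl⟩ := Finset.mem_image.1 m
    exact (k i).kp.ov.1
  have G := Ra.gd r1 r2 h hT pr
  let P : Unit ⊕ e.σ ⊕ e.σ ⊕ ι → Ideal (𝓞 Qb) := Sum.elim (fun _ => e.P 2) (Sum.elim (fun p => e.P p)
    (Sum.elim (fun p => b.c • e.P p) fun i => (k i).P))
  let L : Unit ⊕ e.σ ⊕ e.σ ⊕ ι → ℕ := Sum.elim (fun _ => 2) (Sum.elim (fun p => p)
    (Sum.elim (fun p => p) fun i => (k i).l))
  have ov : ∀ i, Ov (L i) (P i) := by
    rintro (_ | p | p | i)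
    exacts [e.ov 2 e.two, e.ov p (sig p).1, GW.ov_smul (e.ov p (sig p).1) _, (k i).kp.ov]
  have n1 : ∀ i p, p ∈ e.S → (k i).l ≠ p := fun i p m h => (k i).out (h ▸ hS p m)
  have n2 : ∀ p : e.σ, ∀ g, g • e.P p = e.P p → g ∈ b.Γ := fun p g h =>
    b.le p (sig p).1 ((GW.Pl.dec_iff _ _).2 h)
  have ht : ∀ x : e.σ ⊕ ι, ∃ β, Tp b.Γ (b.aa _ Ψ) (P (inr (inr x)))
      (Sum.elim (fun p : e.σ => b.c * b.φ p * b.c) (fun i => (k i).φ ^ 2) x)
      (Sum.elim (fun p : e.σ => b.c * e.τ p * b.c) (fun i => (k i).τ) x)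
      (Sum.elim (Nl b Ψ) 0 x) β := fun x => x.rec (tp1 hL hU h G) fun i => tp2 hL r1 r2 h G (k i)
  choose β ht using ht
  refine (core (C := C + Fintype.card (Mu e.σ ι) + 2 * Fintype.card (Fin 2) *
    (c.primeFactors ∪ Finset.univ.image fun i => (k i).l).card) hP (rk j) G ht (fun _ => rfl)
    (fun i => ⟨_, ?_, ov i⟩) (fun x y g hg H => ?_)
    ⟨inl (), ov (inl ()), b.le 2 e.two, fun y H => ?_⟩ hε.coc hε.lc
    ⟨q, hT (Finset.mem_union_right _ hq), fun H => (h.cop q hq).1 (H ▸ e.two), Q, q1, q2,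
      fun g m => (res (hΨ g (q2 m))).trans (q3 g m), fun i g _ H => ?_⟩ fun b' => ?_).elim
    fun r ⟨hr, Q, l, u, t, μ, H⟩ => ?_
  rotate_right
  · obtain ⟨H1, H2⟩ := H _ rfl
    refine ⟨r, hr.trans (Nat.add_le_add_right ?_ _), ⟨Q, l, u, t, μ⟩, inj, fun M _ _ => ?_, H2⟩
    · have := (Finset.card_union_le c.primeFactors _).trans (Nat.add_le_add hm
        ((Finset.card_image_le (s := Finset.univ) (f := fun i => (k i).l)).trans hn))
      simp only [Fintype.card_sum, Fintype.card_prod, Fintype.card_fin, Fintype.card_unit]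
      omega
    · have E : Sl M b.Γ (Tk b c Ψ k) (b.aa _ Ψ) ε P =
          {x | b.Sel (Tk b c Ψ k) (b.aa _ Ψ) ε x.1 x.2.1 x.2.2} := Set.ext fun x =>
        ⟨fun x => ⟨x.1, fun g m => x.2.1 g ⟨b.le 2 e.two m, m⟩,
          fun p g m => x.2.2 p g ⟨b.le p (sig p).1 m, m⟩⟩,
          fun x => ⟨x.toCc, fun g m => x.sv g m.2, fun p g m => x.sp p g m.2⟩⟩
      have := H1 M
      rwa [E] at this
  · rcases i with _ | p | p | i
    exacts [hT (hS 2 e.two), hT (hS p (sig p).1), hT (hS p (sig p).1), hk i]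
  · have E := ov_eq (GW.ov_smul (ov x) g) (H ▸ ov y)
    rcases x with _ | p | p | i <;> rcases y with _ | p' | p' | i'
    · rfl
    · exact absurd E.symm (sig p').2
    · exact absurd E.symm (sig p').2
    · exact absurd E.symm (n1 i' 2 e.two)
    · exact absurd E (sig p).2
    · rw [Subtype.ext E]
    · obtain rfl := Subtype.ext E
      exact absurd ((b.Γ.mul_mem_cancel_left (inv_mem hg)).1
        (n2 p (g⁻¹ * b.c) (by rw [mul_smul, inv_smul_eq_iff]; exact H))) (Ra.c_out b)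
    · exact absurd E.symm (n1 i' p (sig p).1)
    · exact absurd E (sig p).2
    · obtain rfl := Subtype.ext E
      exact absurd ((b.Γ.mul_mem_cancel_left hg).1
        (n2 p (g * b.c) (by rw [mul_smul]; exact H.symm))) (Ra.c_out b)
    · rw [Subtype.ext E]
    · exact absurd E.symm (n1 i' p (sig p).1)
    · exact absurd E (n1 i 2 e.two)
    · exact absurd E (n1 i p' (sig p').1)
    · exact absurd E (n1 i p' (sig p').1)
    · rw [inj E]
  · have E := ov_eq (ov y) H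
    rcases y with _ | p | p | i
    exacts [rfl, absurd E (sig p).2, absurd E (sig p).2, absurd E (n1 i 2 e.two)]
  · have E := ov_eq (GW.ov_smul (ov i) g) (H ▸ q1)
    have n3 := (h.cop q hq).1
    rcases i with _ | p | p | i
    exacts [n3 (E ▸ e.two), n3 (E ▸ (sig p).1), n3 (E ▸ (sig p).1),
      (k i).out ((show (k i).l = q from E) ▸ Finset.mem_union_right _ hq)]
  · have := (hC (Mu e.σ ι) _ (c.primeFactors ∪ Finset.univ.image fun i => (k i).l) P b' fun l m =>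
      pr l (by rw [Tk, Fld.T, Finset.union_assoc]; exact Finset.mem_union_right _ m)).2
    rw [← Finset.union_assoc] at this
    rwa [zs_congr fun g m => res (hΨ g m)]

end Vale.Agent.P004F.Pa
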