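import Vale.Agent.P004F.Pa.St

/-! # P004F (FRAME), block PAT: limits of vectors and the row LIS -/

set_option linter.all false

open NumberField Matrix Filter PowerSeries Submodule Set
open scoped Classical Pointwise

noncomputable section

namespace Vale.Agent.P004F.Pa

open Vale.Agent.P022 Vale.Agent.P004K
open Pat (U Sy)

namespace Lx

variable {I ρ : Type}

/-- the limit of vectors -/
def lv (v : ∀ j, I → Rj (j + 1)) : I → La := fun i => ur fun j => v j i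

theorem lv_ae {v v' : ∀ j, I → Rj (j + 1)} (h : ∀ᶠ j in U, v j = v' j) : lv v = lv v' :=
  funext fun i => Sy.succ.ur_ae (h.mono fun j e => by rw [e])

theorem lv_sub (v v' : ∀ j, I → Rj (j + 1)) : lv (fun j => v j - v' j) = lv v - lv v' :=
  funext fun i => ur.map_sub _ _

theorem lv_vecMul [Fintype ρ] (v : ∀ j, ρ → Rj (j + 1)) (A : ∀ j, Matrix ρ I (Rj (j + 1))) :
    lv (fun j => v j ᵥ* A j) = lv v ᵥ* um A :=
  congrFun (Sy.succ.um_mul (fun j => Matrix.of fun _ : Unit => v j) A) ()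

theorem lv_mulVec [Fintype I] (A : ∀ j, Matrix ρ I (Rj (j + 1))) (v : ∀ j, I → Rj (j + 1)) :
    lv (fun j => A j *ᵥ v j) = um A *ᵥ lv v :=
  funext fun i => congrFun (congrFun
    (Sy.succ.um_mul A (fun j => Matrix.of fun a (_ : Unit) => v j a)) i) ()

theorem mem_sp {R : Type} [CommRing R] [Fintype ρ] {M : Matrix ρ I R} {v : I → R} :
    v ∈ span R (range M) ↔ ∃ β, v = β ᵥ* M :=
  (mem_span_range_iff_exists_fun R).trans
    (exists_congr fun β => by rw [vecMul_eq_sum, eq_comm])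

/-- membership in the span of the rows passes to the limit -/
theorem lv_mem [Fintype ρ] {v : ∀ j, I → Rj (j + 1)} {M : ∀ j, Matrix ρ I (Rj (j + 1))}
    (h : ∀ᶠ j in U, v j ∈ span (Rj (j + 1)) (range (M j))) : lv v ∈ span La (range (um M)) := by
  refine mem_sp.2 ⟨lv fun j => if e : ∃ β, v j = β ᵥ* M j then e.choose else 0, ?_⟩
  rw [← lv_vecMul]
  exact lv_ae (h.mono fun j e => by rw [dif_pos (mem_sp.1 e)]; exact (mem_sp.1 e).choose_spec)

variable {e : Crv} {b : Fld e} {s : Sq b} {w : ℕ → ℕ → GQ → ℕ}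

theorem Rm_lim (L : s.Lm w) (n : ℕ) :
    L.pk.Rm (s.γ n) = um fun j => (L.d j).Rm b (s.Ψ j) := by
  refine Matrix.ext fun a i => ?_
  rcases a with a | a
  · rfl
  · exact (congrFun (congrFun (Sy.succ.um_mul (fun j => Nl b (s.Ψ j) a.1) fun j => (L.d j).l a.1)
      a.2) i).symm

theorem Rl_lim (L : s.Lm w) (n : ℕ) {v : ∀ j, Ix L.r e.σ L.ι → Rj (j + 1)}
    (h : ∀ᶠ j in U, v j ∈ span (Rj (j + 1)) (range ((L.d j).Rm b (s.Ψ j)))) :
    lv v ∈ L.pk.Rl (s.γ n) := by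
  rw [Pk.Rl, Rm_lim]
  exact lv_mem h

end Lx

open Lx in
/-- **row LIS** -/
theorem lis (hI : ISL) (hE : ETA) : LIS := by
  choose w hw hi using hI
  refine ⟨w, hw, fun e b s n π hp h2 => ?_⟩
  obtain ⟨η, h1, hη⟩ := hE e b s π hp h2
  refine ⟨ur η, h1, fun L => ?_⟩
  let O : ∀ j, Matrix (Option (Fin L.r ⊕ e.σ × Fin 2)) (Ix L.r e.σ L.ι) (Rj (j + 1)) := fun j =>
    .of fun o => o.elim (L.d j).t ((L.d j).Rm b (s.Ψ j))
  let p : ∀ j, Matrix (Option (Fin L.r ⊕ e.σ × Fin 2)) (Ix L.r e.σ L.ι) (Rj (j + 1)) ×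
      Matrix (Option (Fin L.r ⊕ e.σ × Fin 2)) (Ix L.r e.σ L.ι) (Rj (j + 1)) → Prop := fun j Z =>
    η j • ∑ x, (vecMulVec (L.f j x) (L.s' j x) +
    vecMulVec (L.s' j x) (L.f j x)) = (O j)ᵀ * Z.1 + Z.2ᵀ * O j
  have key : ∀ᶠ j in U, ∃ Z, p j Z := ((L.un.and hη).and s.chr).mono fun j h => by
    obtain ⟨⟨⟨k', -, u, e1, e2, -⟩, v⟩, c⟩ := h
    obtain ⟨Z, Z', hZ⟩ := hi j e b _ _ _ _ _ k' _ _ (L.κ j) c u v
    refine ⟨(Z, Z'), ?_⟩
    simp only [p, e1, e2]
    exact hZ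
  let Z := fun j => if h : ∃ Z, p j Z then h.choose else 0
  have k2 : ∀ᶠ j in U, p j (Z j) := key.mono fun j h => by
    simp only [Z, dif_pos h]
    exact h.choose_spec
  have hO : um O = .of fun o : Option _ => o.elim L.pk.t (L.pk.Rm (s.γ n)) := by
    rw [Rm_lim]
    refine Matrix.ext fun o i => ?_
    cases o <;> rfl
  have hv : ∀ (x y : ∀ j, Ix L.r e.σ L.ι → Rj (j + 1)),
      um (fun j => vecMulVec (x j) (y j)) = vecMulVec (lv x) (lv y) := fun x y =>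
    Matrix.ext fun a a' => ur.map_mul _ _
  refine ⟨um fun j => (Z j).1, um fun j => (Z j).2, ?_⟩
  have := Sy.succ.um_ae k2
  rw [Sy.um_smul, Sy.um_sum, Sy.um_add, Sy.um_mul, Sy.um_mul, Sy.um_tr, Sy.um_tr] at this
  refine Eq.trans (congrArg (ur η • ·) ?_) (this.trans (congrArg
    (fun M => Mᵀ * (um fun j => (Z j).1) + (um fun j => (Z j).2)ᵀ * M) hO))
  exact Finset.sum_congr rfl fun x _ => by rw [Sy.um_add]; exact congrArg₂ _ (hv _ _).symm (hv _ _).symm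

end Vale.Agent.P004F.Pa
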