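import Vale.Agent.P004F.Pa.St
import Vale.Agent.P004F.Alg.Lam

/-! # P004F (FRAME), block PAT: the row `NUM` -/

set_option linter.all false

open NumberField Matrix Filter PowerSeries Submodule Set
open scoped Classical

noncomputable section

namespace Vale.Agent.P004F.Pa

open Vale.Agent.P022 Vale.Agent.P004K
open Pr (ac)
open Pat (U Sy Im)

namespace Nm

/-- reduction modulo two -/
abbrev m2 : La →+* PowerSeries (ZMod 2) := PowerSeries.map PadicInt.toZMod

theorem z2 : PadicInt.toZMod (2 : ℤ_[2]) = 0 := by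
  rw [map_ofNat]
  rfl

theorem m2_two : m2 2 = 0 := by
  rw [show (2 : La) = C 2 from (map_ofNat C 2).symm, map_C, z2, map_zero]

theorem mem_two {k : ℕ} {f : La} (h : X ^ k ∣ m2 f) : f ∈ Ideal.span {2, (X : La) ^ k} := by
  have a : ∀ i < k, (2 : ℤ_[2]) ∣ coeff i f := fun i hi => by
    have := X_pow_dvd_iff.1 h i hi
    rw [coeff_map, ← RingHom.mem_ker, PadicInt.ker_toZMod, PadicInt.maximalIdeal_eq_span_p,
      Ideal.mem_span_singleton] at this
    exact_mod_cast this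
  choose c hc using a
  obtain ⟨b, hb⟩ : X ^ k ∣ f - (PowerSeries.mk fun i => if h : i < k then c i h else 0) * C 2 :=
    X_pow_dvd_iff.2 fun i hi => by
      rw [map_sub, coeff_mul_C, coeff_mk, dif_pos hi, hc i hi, mul_comm, sub_self]
  rw [map_ofNat] at hb
  exact Ideal.mem_span_pair.2 ⟨_, b, (congrArg _ (mul_comm b _)).trans (sub_eq_iff_eq_add'.1 hb).symm⟩

/-- reduction modulo `2` and `T ^ J` -/
def rb (J : ℕ) : La →+* Rb J := (Ideal.Quotient.mk _).comp m2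

theorem rb_Im {J k : ℕ} (h0 : k ≠ 0) (h : J ≤ k) {f : La} (hf : f ∈ Im k) : rb J f = 0 := by
  obtain ⟨a, b, rfl⟩ := Ideal.mem_span_pair.1 hf
  have : rb J (X ^ k) = 0 := Ideal.Quotient.eq_zero_iff_mem.2 (Ideal.mem_span_singleton.2 (by
    rw [map_pow, map_X]
    exact pow_dvd_pow _ h))
  rw [map_add, map_mul, map_mul, this, map_pow, show rb J 2 = 0 by simp [rb, m2_two], zero_pow h0]
  simp

/-- the same on a finite quotient -/
def rq {J j : ℕ} (h : J ≤ j + 1) : Rj (j + 1) →+* Rb J :=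
  Ideal.Quotient.lift _ (rb J) fun _ => rb_Im j.succ_ne_zero h

variable {e : Crv} (b : Fld e)

theorem aa_rq {J j : ℕ} (h : J ≤ j + 1) (χ χ' : GQ → ℕ) (g : GQ) :
    (b.aa _ (ps (j + 1) χ χ') g).map (rq h) = b.ab J χ g := by
  have t : (2 : Rb J) = 0 := by rw [← map_ofNat (rb J), rb, RingHom.comp_apply, m2_two, map_zero]
  have a : rq h (ps (j + 1) χ χ' g) = (Ideal.Quotient.mk _ (1 + X) : Rb J) ^ χ g := by
    refine (Ideal.Quotient.lift_mk _ _ _).trans ?_
    simp only [map_mul, map_pow, map_add, map_one, map_ofNat, t]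
    simp [rb]
  have c : ∀ x, rq h (cj _ x) = cb J x := fun x => by
    refine (Ideal.Quotient.lift_mk _ _ _).trans ?_
    simp [rb, cb]
  have d : ((sd (P004T.ds e.δ) g : ℤ) : Rb J) = 1 := by
    unfold sd
    split_ifs
    · simp
    · push_cast
      linear_combination -t
  ext i i'
  simp only [Fld.aa, Fld.ab, Crv.rd, Matrix.map_apply, Matrix.smul_apply, smul_eq_mul]
  simp only [zsmul_eq_mul, map_mul, a, c, map_intCast, d, one_mul]

/-- the kernel of the matrix of a stage without Kolyvagin primes -/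
theorem card {J j : ℕ} (h : J ≤ j + 1) {c : ℕ} {χ χ' : GQ → ℕ} {ε} {ι : Type} [Fintype ι]
    [DecidableEq ι] [IsEmpty ι] {k : ι → b.Kp (j + 1) c (ps (j + 1) χ χ')} {r : ℕ}
    {d : Rw _ e.σ ι r} (u : Un b c (ps (j + 1) χ χ') ε k d) (s) :
    Nat.card {y // (Matrix.of (Sum.elim (d.Rm b (ps (j + 1) χ χ')) fun o : Option (ι × Fin 2) =>
      o.elim d.t s)).map (rq h) *ᵥ y = 0} = Nat.card (b.Z1 J c χ) := by
  let _ := (rq h).toAlgebra
  have B := u.bij (Rb J)
  have T : Tk b c _ k = b.T c := by simp [Tk]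
  have a : ∀ g (x : Fin 2 → Rb J), ac (b.aa _ (ps (j + 1) χ χ') g) x = ac (b.ab J χ g) x :=
    fun g x => by rw [← aa_rq b h χ χ']; rfl
  have a' : ∀ g (x : Fin 2 → Rb J),
      ac (b.aa _ (ps (j + 1) χ χ') g - 1) x = ac (b.ab J χ g - 1) x := fun g x => by
    rw [← aa_rq b h χ χ', ← Matrix.map_one (rq h) (map_zero _) (map_one _),
      ← Matrix.map_sub _ (map_sub _)]
    rfl
  have S : ∀ (x : GQ → Fin 2 → Rb J) m, b.Sel (Tk b c _ k) (b.aa _ (ps (j + 1) χ χ')) ε x 0 m ↔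
      (x, m) ∈ b.Z1 J c χ := fun x m => by
    rw [T]
    exact ⟨fun q => ⟨⟨by simpa only [a] using q.coc, q.out, q.lc, q.unr⟩,
        by simpa using q.sv, by simpa only [a'] using q.sp⟩,
      fun q => ⟨⟨by simpa only [a] using q.coc, q.1.out, q.lc, q.unr⟩,
        by simpa using q.sv, by simpa only [a'] using q.sp⟩⟩
  have K : ∀ y : Ix r e.σ ι → Rb J, (Matrix.of (Sum.elim (d.Rm b (ps (j + 1) χ χ'))
      fun o : Option (ι × Fin 2) => o.elim d.t s)).map (rq h) *ᵥ y = 0 ↔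
      ac (d.Rm b (ps (j + 1) χ χ')) y = 0 ∧ ∑ i, d.t i • y i = 0 := fun y =>
    ⟨fun q => ⟨funext fun i => congrFun q (.inl i), congrFun q (.inr none)⟩, fun q => funext fun
      | .inl i => congrFun q.1 i
      | .inr none => q.2
      | .inr (some x) => isEmptyElim x.1⟩
  refine Nat.card_congr (Equiv.ofBijective (fun y => ⟨(fun g => ac (d.u g) y.1,
    fun p => ac (d.m p) y.1), (S _ _).1 (((K _).1 y.2).2 ▸ B.mapsTo ((K _).1 y.2).1)⟩)
    ⟨fun y z q => Subtype.ext (B.injOn ((K _).1 y.2).1 ((K _).1 z.2).1 ?_), fun x => ?_⟩)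
  · obtain ⟨q1, q2⟩ := Prod.mk.inj (Subtype.mk.inj q)
    simp only [q1, q2, ((K _).1 y.2).2, ((K _).1 z.2).2]
  · obtain ⟨y, q1, q2⟩ := B.surjOn (a := (x.1.1, 0, x.1.2)) ((S _ _).2 x.2)
    simp only [Prod.mk.injEq] at q2
    exact ⟨⟨y, (K _).2 ⟨q1, q2.2.1⟩⟩, Subtype.ext (Prod.ext q2.1 q2.2.2)⟩

end Nm

open Nm

theorem num : NUM := by
  intro e b s w n L hι
  have J0 : s.J ≠ 0 := (s.B.zero_le.trans_lt s.BJ).ne'
  have A : L.pk.Mx (s.γ n) = um fun j => Matrix.of (Sum.elim ((L.d j).Rm b (s.Ψ j))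
      fun o : Option (L.ι × Fin 2) => o.elim (L.d j).t (L.s' j)) := by
    ext1 (( i | x) | _ | x) i'
    · rfl
    · exact congrFun₂ (Sy.succ.um_mul (fun j => Nl b (s.Ψ j) x.1) fun j => (L.d j).l x.1).symm x.2 i'
    · rfl
    · rfl
  have T : L.pk.t ⬝ᵥ L.pk.κ ∅ = ur fun j => s.t j ∅ := by
    refine Eq.trans ?_ (Sy.succ.ur_ae (x := fun j => (L.d j).t ⬝ᵥ L.κ j ∅) (L.un.mono ?_))
    · simp only [Sq.Lm.pk, dotProduct, ← map_mul, ← map_sum]
      exact congrArg _ (funext fun j => by simp only [Finset.sum_apply, Pi.mul_apply]; rfl)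
    · rintro j ⟨k, -, -, -, -, q⟩
      simpa using ((q ∅).2 _ rfl).2.1
  obtain ⟨j, ⟨⟨k, -, u, -⟩, up, lo⟩, h, q⟩ := ((L.un.and (s.up.and s.lo)).and ((Pat.U_ge s.J).and
    (Sy.succ.um_spec (fun j => Matrix.of (Sum.elim ((L.d j).Rm b (s.Ψ j))
      fun o : Option (L.ι × Fin 2) => o.elim (L.d j).t (L.s' j))) s.J))).exists
  have N := Alg.cnt_ps (Ideal.Quotient.mk _ : _ →+* Rb s.J) Ideal.Quotient.mk_surjective (j := s.J)
    (fun x => Ideal.Quotient.eq_zero_iff_mem.trans Ideal.mem_span_singleton)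
    ((L.pk.Mx (s.γ n)).map m2)
  have E : ((L.pk.Mx (s.γ n)).map m2).map (Ideal.Quotient.mk _ : _ →+* Rb s.J) =
      (Matrix.of (Sum.elim ((L.d j).Rm b (s.Ψ j)) fun o : Option (L.ι × Fin 2) =>
        o.elim (L.d j).t (L.s' j))).map (rq (h.trans j.le_succ)) := by
    ext1 i i'
    obtain ⟨y, hy⟩ := Ideal.Quotient.mk_surjective (Matrix.of (Sum.elim ((L.d j).Rm b (s.Ψ j))
      fun o : Option (L.ι × Fin 2) => o.elim (L.d j).t (L.s' j)) i i')
    have := rb_Im J0 le_rfl (q i i' y hy)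
    rw [map_sub, sub_eq_zero] at this
    rw [A]
    exact this.symm.trans (congrArg (rq (h.trans j.le_succ)) hy)
  have c : Nat.card {y // ((L.pk.Mx (s.γ n)).map m2).map (Ideal.Quotient.mk _ : _ →+* Rb s.J) *ᵥ y = 0}
      = Nat.card (b.Z1 s.J (s.c j * s.q j) (s.χ j)) := by
    rw [E]
    exact card b (h.trans j.le_succ) u (L.s' j)
  rw [c, Nat.card_zmod, ← RingHom.mapMatrix_apply, ← RingHom.map_det] at N
  refine ⟨fun z => ?_, by_contra fun z => ?_, fun z => ?_, fun z => ?_⟩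
  · exact ((N.2 z).trans up).not_gt (Nat.pow_lt_pow_right one_lt_two s.BJ)
  · obtain ⟨l, hl⟩ := Nat.exists_eq_succ_of_ne_zero (n := 2 * s.l) fun e => z (by simp [e])
    rw [hl] at z lo
    exact (lo.trans (N.1 l z)).not_gt (Nat.pow_lt_pow_right one_lt_two l.lt_succ_self)
  · obtain ⟨j, a, q⟩ := (s.an.and (Sy.succ.ur_spec (fun j => s.t j ∅) (s.l + 1))).exists
    obtain ⟨y, hy⟩ := Ideal.Quotient.mk_surjective (s.t j ∅)
    have i : Im (s.l + 1) ≤ Ideal.span {2, (X : La) ^ (s.l + 1)} := Ideal.span_le.2 (by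
      rintro _ (rfl | rfl)
      · exact Ideal.pow_mem_of_mem _ (Ideal.subset_span (by simp)) _ (Nat.succ_pos _)
      · exact Ideal.subset_span (by simp))
    have := Ideal.mem_map_of_mem (mj (j + 1)) (Ideal.add_mem _ (i (q y hy)) (mem_two (T ▸ z)))
    rw [sub_add_cancel, hy, Ideal.map_span, image_pair, map_ofNat, map_pow] at this
    exact a this
  · rw [T, ← X_dvd_iff, ← Ideal.mem_span_singleton]
    refine Sy.succ.ur_mem _ (s.es.mono fun j q => ?_)
    rw [Ideal.map_span, image_singleton]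
    refine q.tor (fun g _ => Ideal.mem_span_singleton.2 ?_) z
    rw [ps, ← map_one (mj _), ← map_sub]
    exact map_dvd _ (X_dvd_iff.2 (by simp))

end Vale.Agent.P004F.Pa
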