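import Vale.Agent.P004F.Pa.St

/-! # P004F (FRAME), block PAT: the universal class (row PK1) -/

set_option linter.all false

open NumberField Matrix Submodule Set
open scoped Classical

noncomputable section

namespace Vale.Agent.P004F.Pa

open Vale.Agent.P022
open Vale.Agent.P022D.W (dec)
open Pr (ac)

/-- Nakayama: `card I` members of a generating family suffice -/
theorem nak {R I α : Type} [CommRing R] [IsLocalRing R] [Fintype I] [Nonempty α] (s : α → I → R)
    (N : Submodule R (I → R)) (h : span R (range s) ⊔ N = ⊤) :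
    ∃ f : I → α, span R (range fun x => s (f x)) ⊔ N = ⊤ := by
  classical
  let k := IsLocalRing.ResidueField R
  let φ : (I → R) → I → k := fun v i => IsLocalRing.residue R (v i)
  obtain ⟨B, hB, h1, h2⟩ := exists_linearIndependent k (φ '' (range s ∪ N))
  haveI : Fintype B := h2.setFinite.fintype
  obtain ⟨e⟩ : Nonempty (B ↪ I) :=
    Function.Embedding.nonempty_of_card_le (by simpa using h2.fintype_card_le_finrank)
  have c : ∀ v : B, ∃ a, φ (s a) = v ∨ v.1 ∈ φ '' N := fun v => by
    obtain ⟨w, ⟨a, rfl⟩ | hw, e⟩ := hB v.2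
    · exact ⟨a, .inl e⟩
    · exact ⟨Classical.arbitrary α, .inr ⟨w, hw, e⟩⟩
  choose a ha using c
  refine ⟨Function.extend e a fun _ => Classical.arbitrary α, ?_⟩
  generalize hN : span R (range fun x => s (Function.extend e a (fun _ => Classical.arbitrary α) x)) ⊔ N = N'
  have key : ∀ w ∈ span k B, ∃ v ∈ N', φ v = w := fun w hw => by
    induction hw using span_induction with
    | mem x hx =>
      rcases ha ⟨x, hx⟩ with q | ⟨w, hw, q⟩
      · refine ⟨_, hN ▸ mem_sup_left (subset_span (mem_range_self (e ⟨x, hx⟩))), ?_⟩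
        rw [e.injective.extend_apply]; exact q
      · exact ⟨w, hN ▸ mem_sup_right hw, q⟩
    | zero => exact ⟨0, zero_mem _, funext fun i => map_zero _⟩
    | add x y _ _ p q =>
      obtain ⟨v, m, rfl⟩ := p
      obtain ⟨v', m', rfl⟩ := q
      exact ⟨_, add_mem m m', funext fun i => map_add _ _ _⟩
    | smul r x _ p =>
      obtain ⟨v, m, rfl⟩ := p
      obtain ⟨r, rfl⟩ := IsLocalRing.residue_surjective r
      exact ⟨_, smul_mem _ r m, funext fun i => map_mul _ _ _⟩
  have all : ∀ v, φ v ∈ span k B := fun v => by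
    have : v ∈ span R (range s ∪ N) := by rw [span_union, span_eq, h]; trivial
    rw [h1]
    induction this using span_induction with
    | mem x hx => exact subset_span ⟨x, hx, rfl⟩
    | zero => exact (show φ 0 = 0 from funext fun i => map_zero _) ▸ zero_mem _
    | add x y _ _ p q => exact (show φ (x + y) = φ x + φ y from funext fun i => map_add _ _ _) ▸ add_mem p q
    | smul r x _ p =>
      exact (show φ (r • x) = IsLocalRing.residue R r • φ x from funext fun i => map_mul _ _ _) ▸ smul_mem _ _ p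
  refine top_le_iff.1 (le_of_le_smul_of_le_jacobson_bot Module.Finite.fg_top
    (IsLocalRing.maximalIdeal_le_jacobson _) fun v _ => ?_)
  obtain ⟨w, hw, q⟩ := key _ (all v)
  rw [← add_sub_cancel w v]
  refine add_mem (mem_sup_left hw) (mem_sup_right ?_)
  rw [← Finset.univ_sum_single (v - w)]
  refine sum_mem fun i _ => ?_
  rw [← mul_one ((v - w) i), ← smul_eq_mul, Pi.single_smul]
  refine smul_mem_smul ?_ trivial
  rw [← IsLocalRing.residue_eq_zero_iff, Pi.sub_apply, map_sub, sub_eq_zero]
  exact (congrFun q i).symm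

section up

variable {R I s : Type} [CommRing R] [Fintype I] [DecidableEq I] (L : Submodule R (I → R))

/-- the universal point -/
def up (i : I) : (I → R) ⧸ L := L.mkQ (Pi.single i 1)

theorem sum_up (v : I → R) : ∑ i, v i • up L i = L.mkQ v := by
  conv_rhs => rw [← Finset.univ_sum_single v, map_sum]
  refine Finset.sum_congr rfl fun i _ => ?_
  rw [up, ← map_smul, ← Pi.single_smul, smul_eq_mul, mul_one]

theorem ac_up (A : Matrix s I R) (i : s) : ac A (up L) i = L.mkQ (A i) := sum_up L _

theorem ac_mk {J : Type} [Fintype J] (A : Matrix s J R) (B : Matrix J I R) (i : s) :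
    ac A (fun x => L.mkQ (B x)) i = L.mkQ (A i ᵥ* B) := by
  rw [vecMul_eq_sum, map_sum]
  exact Finset.sum_congr rfl fun x _ => (map_smul _ _ _).symm

theorem mk_zero {v : I → R} : L.mkQ v = 0 ↔ v ∈ L := Quotient.mk_eq_zero L

end up

variable {e : Crv} {b : Fld e} {j c : ℕ} {Ψ : GQ → Rj j} {ε : GQ → Fin 2 → Rj j} {ι : Type}
  [Fintype ι] [DecidableEq ι] {k : ι → b.Kp j c Ψ} {r : ℕ} {d : Rw (Rj j) e.σ ι r}

theorem up_rel {L : Submodule (Rj j) (Ix r e.σ ι → Rj j)}
    (h : span (Rj j) (range (d.Rm b Ψ)) ≤ L) : ac (d.Rm b Ψ) (up L) = 0 :=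
  funext fun i => (ac_up L _ i).trans ((mk_zero L).2 (h (subset_span (mem_range_self i))))

/-- the universal class -/
theorem Un.sel (h : Un b c Ψ ε k d) {L : Submodule (Rj j) (Ix r e.σ ι → Rj j)}
    (hL : span (Rj j) (range (d.Rm b Ψ)) ≤ L) : b.Sel (Tk b c Ψ k) (b.aa j Ψ) ε
      (fun g i => L.mkQ (d.u g i)) (L.mkQ d.t) fun p i => L.mkQ (d.m p i) := by
  have := (h.bij _).mapsTo (up_rel hL)
  simp only [mem_setOf_eq, sum_up] at this
  rwa [show (fun g => ac (d.u g) (up L)) = fun g i => L.mkQ (d.u g i) from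
      funext fun g => funext (ac_up L _),
    show (fun p => ac (d.m p) (up L)) = fun p i => L.mkQ (d.m p i) from
      funext fun p => funext (ac_up L _)] at this

/-- the values of the universal class generate -/
theorem Un.top (h : Un b c Ψ ε k d) {L : Submodule (Rj j) (Ix r e.σ ι → Rj j)}
    (hL : span (Rj j) (range (d.Rm b Ψ)) ≤ L) (hu : ∀ g ∈ b.Γ, ∀ i, d.u g i ∈ L) (ht : d.t ∈ L)
    (hm : ∀ p i, d.m p i ∈ L) : L = ⊤ := by
  have u : ∀ g i, d.u g i ∈ L := fun g i => by
    by_cases m : g ∈ b.Γ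
    · exact hu g m i
    · exact (mk_zero L).1 (congrFun ((h.sel hL).out g m) i)
  have z : ∀ A : Matrix (Fin 2) _ (Rj j), (∀ i, A i ∈ L) → ac A (up L) = ac A 0 := fun A m => by
    rw [Pr.ac_zero]
    exact funext fun i => (ac_up L _ i).trans ((mk_zero L).2 (m i))
  have := (h.bij _).injOn (up_rel hL) (Pr.ac_zero _) (Prod.ext (funext fun g => z _ (u g))
    (Prod.ext ((sum_up L _).trans (((mk_zero L).2 ht).trans (by simp))) (funext fun p => z _ (hm p))))
  refine eq_top_iff.2 fun v _ => (mk_zero L).1 ?_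
  rw [← sum_up, this]
  simp

theorem pk1 : PK1 := by
  intro e b j c Ψ ε ι _ _ k r d h L hL
  have S := h.sel hL.ge
  refine ⟨fun g hg g' hg' i => (mk_zero L).1 ?_, ?_, fun g hg i => (mk_zero L).1 ?_,
    fun p g hg i => (mk_zero L).1 ?_, ?_⟩
  · have := congrFun (S.coc g hg g' hg') i
    rw [Pi.add_apply, ac_mk] at this
    show L.mkQ (d.u (g * g') i - d.u g i - b.aa _ Ψ g i ᵥ* d.u g') = 0
    rw [map_sub, map_sub, this, add_sub_cancel_left, sub_self]
  · obtain ⟨W, hW, w⟩ := S.lc
    exact ⟨W, hW, fun x m i => (mk_zero L).1 (congrFun (w x m) i)⟩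
  · rw [map_sub, map_smul, sub_eq_zero]
    exact S.sv g hg i
  · rw [map_sub, sub_eq_zero, ← ac_mk]
    exact congrFun (S.sp p g hg) i
  · obtain ⟨f, hf⟩ := nak (fun a : b.Γ × Fin 2 => d.u a.1 a.2)
      (L ⊔ span _ (insert d.t {v | ∃ p i, v = d.m p i})) (h.top
        (hL.ge.trans (le_sup_left.trans le_sup_right))
        (fun g m i => mem_sup_left (subset_span (mem_range_self ((⟨g, m⟩ : b.Γ), i))))
        (mem_sup_right (mem_sup_right (subset_span (mem_insert _ _))))
        fun p i => mem_sup_right (mem_sup_right (subset_span (mem_insert_of_mem _ ⟨p, i, rfl⟩))))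
    exact ⟨fun x => (f x).1, fun x => (f x).2, fun x => (f x).1.2, by rw [sup_assoc]; exact hf⟩

end Vale.Agent.P004F.Pa
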