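import Vale.Agent.P004F.Pa.Sep0
import Vale.Agent.P004F.Pa.L0
import Vale.Agent.P004F.Pt.Dh
import Vale.Agent.P004F.En.Row
import Vale.Agent.P004T.Gw1

/-! # P004F, block PAT, row SEP: the zeros of the local factors are disjoint -/

set_option linter.all false

open NumberField Matrix Filter PowerSeries Topology
open scoped Classical Pointwise

noncomputable section

namespace Vale.Agent.P004F.Pa

open Vale.Agent.P022 Vale.Agent.P004K
open Vale.Agent.P027M.S (Inert)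
open Vale.Agent.P022D.W (dec)
open Vale.Agent.P022E.GW (Ov Fb Gn)
open P004S (nu)
open P004T (ds)
open Pat (U Sy)

namespace Se

variable {e : Crv} {b : Fld e}

/-- a vector fixed by Frobenius and inertia is zero -/
theorem fix0 {l : ℕ} {P : Ideal (𝓞 Qb)} {φ : GQ} (o : Ov l P) (f : Fb l P φ) {w : Fin 2 → ℤ_[2]}
    (h1 : e.rd φ *ᵥ w = w) (h2 : ∀ i, Inert P i → e.rd i *ᵥ w = w) : w = 0 := by
  have k : ∀ g, e.rd g *ᵥ w = w → P004S.ac e.rp (ds e.δ) g (fun i => (w i : ℚ_[2])) = fun i => (w i : ℚ_[2]) :=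
    fun g h => funext fun i => by
      rw [← congrArg (fun x : ℤ_[2] => (x : ℚ_[2])) (congrFun h i)]
      fin_cases i <;> simp [P004S.ac, mulVec, dotProduct, En.cv_rd, mul_add, mul_assoc]
  have := En.noi (hq e.par.disc) l P (ds e.δ) (fun i => (w i : ℚ_[2])) o fun g hg =>
    eq_of_forall_dist_le fun ε hε => P004T.Gw.dec_ind o f
      (Q := {g | dist (P004S.ac e.rp (ds e.δ) g fun i => (w i : ℚ_[2])) (fun i => (w i : ℚ_[2])) ≤ ε})
      ((e.rep.ac_cont (ds e.δ) continuous_id continuous_const).continuousAt.preimage_mem_nhds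
        (t := Metric.closedBall (fun i => (w i : ℚ_[2])) ε) (by
          rw [id, P004S.ac_one]; exact Metric.closedBall_mem_nhds _ hε))
      (fun g _ j _ a a' => by
        rw [Set.mem_setOf_eq, P004S.ac_mul] at *
        refine (IsUltrametricDist.dist_triangle_max _ (P004S.ac e.rp (ds e.δ) g fun i => (w i : ℚ_[2])) _).trans
          (max_le ?_ a)
        rw [dist_eq_norm, ← P004S.ac_sub]
        exact (e.rep.norm_ac _ _ _).trans (by rwa [← dist_eq_norm]))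
      (by simp [k φ h1, hε.le]) (fun i hi => by simp [k i (h2 i hi), hε.le]) g hg
  exact funext fun i => Subtype.ext (congrFun this i)

theorem σ2 (p : e.σ) : (p : ℕ) ≠ 2 := (Finset.mem_filter.1 p.2).2.1

theorem σδ (p : e.σ) : ¬ (p : ℕ) ∣ e.δ := by
  simpa using (List.mem_filter.1 (List.mem_toFinset.1 (Finset.mem_filter.1 p.2).1)).2

theorem σo (p : e.σ) : Ov p (e.P p) := e.ov p (σ_S p)

theorem σodd (p : e.σ) : Odd (p : ℕ) := (σo p).1.odd_of_ne_two (σ2 p)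

theorem σf (b : Fld e) (p : e.σ) : Fb p (e.P p) (b.φ p) := b.ch.frb p (σ_S p)

theorem στ (p : e.σ) : Inert (e.P p) (e.τ p) := (e.gn p (σ_S p) (σ2 p)).1

theorem sd_in (p : e.σ) {g : GQ} (h : Inert (e.P p) g) : e.rd g = e.r g := by
  have : nu (ds e.δ) g = 0 := P004S.nu_inert (σo p) (σ2 p) (fun d => σδ p (by
    rw [← En.cv_abs e]; exact Int.natCast_dvd.1 d)) h
  rw [Crv.rd, sd, if_pos this, one_smul]

theorem rr (b : Fld e) : e.r b.c * e.r b.c = 1 := by rw [← map_mul, cc, map_one]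

theorem rd_cj (g : GQ) : e.rd (b.c * g * b.c) = e.r b.c * e.rd g * e.r b.c := by
  have := P004S.nu_conj (ds e.δ) b.c g
  rw [inv_eq_of_mul_eq_one_right (cc b)] at this
  simp only [Crv.rd, sd, this, map_mul, mul_smul_comm, smul_mul_assoc]

theorem det_cj (g : GQ) : (e.rd (b.c * g * b.c)).det = (e.r g).det := by
  rw [rd_cj, det_mul, mul_comm, det_mul, ← mul_assoc, ← det_mul, rr, det_one, one_mul, Crv.rd, sd]
  split_ifs <;> simp [det_fin_two]

theorem un_cj (h1 : UNI) (p : e.σ) : (e.rd (b.c * e.τ p * b.c) - 1) ^ 2 = 0 := by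
  have : e.r b.c * e.r (e.τ p) * e.r b.c - 1 = e.r b.c * (e.r (e.τ p) - 1) * e.r b.c := by
    rw [mul_sub, sub_mul, mul_one, rr]
  rw [rd_cj, sd_in p (στ p), this, sq, mul_assoc, mul_assoc, ← mul_assoc (e.r b.c) (e.r b.c * _),
    ← mul_assoc (e.r b.c) (e.r b.c), rr, one_mul, ← mul_assoc (e.r (e.τ p) - 1), ← sq,
    (h1 e p p.2 _ (στ p)).1, zero_mul, mul_zero]

theorem cj_eq {A B : M2 ℤ_[2]} (h : e.r b.c * A * e.r b.c = B) : A = e.r b.c * B * e.r b.c := by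
  rw [← h, ← mul_assoc, ← mul_assoc, rr, one_mul, mul_assoc, rr, mul_one]

theorem ns_cj (h1 : UNI) (h2 : NSC) (p : e.σ) (h : e.rd (b.c * e.τ p * b.c) = 1) (s : ℤ_[2]) :
    e.rd (b.c * b.φ p * b.c) ≠ s • 1 := fun k => by
  rw [rd_cj] at h k
  have a := cj_eq h
  have a' := cj_eq k
  rw [mul_one, rr, sd_in p (στ p)] at a
  rw [mul_smul_comm, smul_mul_assoc, mul_one, rr, Crv.rd, sd] at a'
  have n := h2 e p _ _ (σo p) (σ2 p) (σf b p) fun g hg => (h1 e p p.2 g hg).2 a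
  split_ifs at a'
  · exact n s (by simpa using a')
  · exact n (-s) (by rw [neg_smul, ← a']; simp)

theorem nf_cj (h1 : UNI) (p : e.σ) (w : Fin 2 → ℤ_[2]) (a : e.rd (b.c * b.φ p * b.c) *ᵥ w = w)
    (a' : e.rd (b.c * e.τ p * b.c) *ᵥ w = w) : w = 0 := by
  have k : ∀ g, e.rd (b.c * g * b.c) *ᵥ w = w → e.rd g *ᵥ (e.r b.c *ᵥ w) = e.r b.c *ᵥ w := fun g h => by
    conv_rhs => rw [← h, rd_cj, mulVec_mulVec, ← mul_assoc, ← mul_assoc, rr, one_mul, ← mulVec_mulVec]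
  have t := k _ a'
  rw [sd_in p (στ p)] at t
  have z := fix0 (σo p) (σf b p) (k _ a) fun i hi => by
    rw [sd_in p hi]
    by_cases u : e.r (e.τ p) = 1
    · rw [(h1 e p p.2 i hi).2 u, one_mulVec]
    obtain ⟨v, v0, hv⟩ := (Finset.mem_filter.1 p.2).2.2
    generalize e.r b.c *ᵥ w = x at t ⊢
    have d : x 0 * v 1 = x 1 * v 0 := by
      by_contra d
      refine u (Matrix.ext fun i j => mul_right_cancel₀ (sub_ne_zero.2 d) ?_)
      have p1 := congrFun t i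
      have p2 := congrFun (hv _ (στ p)) i
      simp only [mulVec, dotProduct, Fin.sum_univ_two] at p1 p2
      fin_cases i <;> fin_cases j <;> simp [-mul_eq_zero] at p1 p2 ⊢
      · linear_combination v 1 * p1 - x 1 * p2
      · linear_combination x 0 * p2 - v 0 * p1
      · linear_combination v 1 * p1 - x 1 * p2
      · linear_combination x 0 * p2 - v 0 * p1
    obtain ⟨m, hm⟩ : ∃ m, v m ≠ 0 := Function.ne_iff.1 v0
    have c : v m • x = x m • v := funext fun n => by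
      fin_cases m <;> fin_cases n <;> simp <;> first | exact mul_comm _ _ | linear_combination d | linear_combination -d
    refine smul_right_injective _ hm ?_
    show v m • (e.r i *ᵥ x) = v m • x
    rw [← mulVec_smul, c, mulVec_smul, hv i hi]
  rw [← one_mulVec w, ← rr b, ← mulVec_mulVec, z, mulVec_zero]

theorem um_aa (Ψ : ∀ j, GQ → Rj (j + 1)) (g : GQ) :
    um (fun j => b.aa (j + 1) (Ψ j) g) = ur (fun j => Ψ j g) • (e.rd g).map C := by
  rw [← hp.um_const ((e.rd g).map C), ← hp.um_smul]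
  rfl

end Se

open Se

theorem sep (r1 : RC1) (r2 : RC2) (h1 : UNI) (h2 : NSC) : ∀ (e : Crv) (b : Fld e) (m k : ℕ), k ≠ 0 →
    ∀ (c : ℕ → ℕ) (χ : ℕ → GQ → ℕ), (∀ᶠ j in U, b.Tw m (2 * (j + 1)) (c j) (χ j)) →
    ∀ β : La, β ≠ 0 → ∃ y : ℕ → ℕ, ∀ (m' : ℕ) (q : ℕ → ℕ) (χ' : ℕ → GQ → ℕ),
    (∀ᶠ j in U, b.Pe m' k y (2 * (j + 1)) (c j) (χ j) (q j) (χ' j)) →
    ∀ π : La, Prime π → ¬ π ∣ 2 →
    (∀ x, Sj π (um fun j => Nl b (ps (j + 1) (χ j) (χ' j)) x)) ∨
    (¬ π ∣ X ∧ ¬ π ∣ β ∧ ∃ x, (∃ i i', ¬ π ∣ um (fun j => Nl b (ps (j + 1) (χ j) (χ' j)) x) i i') ∧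
      ∀ y, y ≠ x → Sj π (um fun j => Nl b (ps (j + 1) (χ j) (χ' j)) y)) := by
  intro e b m k hk c χ tw β β0
  let A : ℕ → M2 La := fun p => (e.rd (b.c * b.φ p * b.c)).map C
  let V : ℕ → M2 La := fun p => (e.rd (b.c * e.τ p * b.c)).map C
  let ξ : ℕ → La := fun p => ur fun j => mj (j + 1) ((1 + X) ^ χ j (b.c * b.φ p * b.c))
  have hV : ∀ p : e.σ, (V p - 1) ^ 2 = 0 := fun p => by
    have := congrArg (C : ℤ_[2] →+* La).mapMatrix (un_cj (b := b) h1 p)
    rwa [map_pow, map_sub, map_one, map_zero] at this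
  have pu : ∀ p : e.σ, IsUnit ((p : ℕ) : La) := fun p => Pat.rs_unit.2 (by
    rw [map_natCast, Ne, ZMod.natCast_eq_zero_iff_even, Nat.not_even_iff_odd]; exact σodd p)
  have p0 : ∀ p : e.σ, ((p : ℕ) : ℤ_[2]) ≠ 0 := fun p => Nat.cast_ne_zero.2 (σo p).1.ne_zero
  obtain ⟨y, -, hy⟩ := sel (fun p y => (ξ p • A p - (1 + 2 * X : La) ^ (k * y) •
    ∑ i ∈ Finset.range p, V p ^ i).det) e.σ β0 fun x hx π a a' a'' =>
      fin_bad a a' a'' hk _ _ _ (un_sum (hV ⟨x, hx⟩) (pu ⟨x, hx⟩))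
  refine ⟨y, fun m' q χ' pe π hπ n2 => ?_⟩
  let ψ : ℕ → La := fun p => ur fun j => ps (j + 1) (χ j) (χ' j) (b.c * b.φ p * b.c)
  have ψ1 : ∀ p, constantCoeff (ψ p) = 1 := fun p => by
    have := hp.ur_dvd (a := fun j => mj (j + 1) X)
      (b := fun j => ps (j + 1) (χ j) (χ' j) (b.c * b.φ p * b.c) - 1) (.of_forall fun j => X_ps ..)
    rw [show hp.ur (fun j => ps (j + 1) (χ j) (χ' j) (b.c * b.φ p * b.c) - 1) = ψ p - 1 from
      (map_sub ur _ 1).trans (by rw [map_one]), hp.ur_const, X_dvd_iff, map_sub, map_one,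
      sub_eq_zero] at this
    exact this
  have ψu : ∀ p, IsUnit (ψ p) := fun p => isUnit_iff_constantCoeff.2 (ψ1 p ▸ isUnit_one)
  have ci : b.c⁻¹ = b.c := inv_eq_of_mul_eq_one_right (cc b)
  have zm : ∀ {n a : ℕ}, (a : ZMod (2 ^ n)) = 0 → 2 ^ n ∣ a := fun h => (ZMod.natCast_eq_zero_iff _ _).1 h
  have hψ : ∀ p : e.σ, ψ p * (1 + 2 * X) ^ (k * y p) = ξ p := fun p => by
    rw [← hp.ur_const ((1 + 2 * X : La) ^ (k * y p)), ← map_mul]
    refine hp.ur_ae (pe.mono fun j h => ?_)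
    obtain ⟨v, -, xq⟩ := h.xq
    have := (h.toAd.dh le_rfl).cj_out r1 b.iq xq.pr.pos b.c_out (φ_mem p)
    rw [ci, ← add_eq_zero_iff_eq_neg, (ZMod.natCast_eq_natCast_iff _ _ _).2 (h.odd p (σ_S p) (σ2 p)),
      ← Nat.cast_add] at this
    show mj _ _ * mj _ _ = mj _ _
    rw [← map_mul, mul_assoc, ← pow_add, map_mul, mj_pow twoX_Im1 (zm this), mul_one]
  have hN : ∀ p : e.σ, (um fun j => Nl b (ps (j + 1) (χ j) (χ' j)) p) = Nt (ψ p • A p) (V p) p := fun p => by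
    have one : ur (fun j => ps (j + 1) (χ j) (χ' j) (b.c * e.τ p * b.c)) = 1 := by
      rw [← map_one ur]
      refine hp.ur_ae ((tw.and pe).mono fun j ⟨t, h⟩ => ?_)
      obtain ⟨v, -, xq⟩ := h.xq
      have nd : ¬ (p : ℕ) ∣ b.δ' := fun d => b.out_S (σo p).1 d (σ_S p)
      have z : ∀ {c : ℕ} {χ : GQ → ℕ}, b.Ad (2 * (j + 1)) c χ → 0 < c → ¬ (p : ℕ) ∣ c →
          2 ^ (2 * (j + 1)) ∣ χ (b.c * e.τ p * b.c) := fun a c0 n => by
        have := (a.dh le_rfl).cj_out r1 b.iq c0 b.c_out (τ_mem p)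
        rw [ci, (a.dh le_rfl).inert r2 b.kd (σo p) n (σ2 p) nd (στ p), neg_zero] at this
        exact zm this
      show mj _ _ = 1
      rw [map_mul, mj_pow X_Im1 (z t.toAd (zero_lt_one.trans t.one) fun d => (t.gp p
        (Nat.mem_primeFactors.2 ⟨(σo p).1, d, t.sq.ne_zero⟩)).out (σ_S p)), mj_pow twoX_Im1
        (z h.toAd xq.pr.pos fun d => h.gp.out
          ((Nat.prime_dvd_prime_iff_eq (σo p).1 xq.pr).1 d ▸ σ_S p)), mul_one]
    refine (um_Nt _ _ _).trans ?_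
    rw [um_aa, um_aa, one, one_smul]
  simp only [hN]
  have sj : ∀ p : e.σ, ¬ π ∣ (ξ p • A p - (1 + 2 * X : La) ^ (k * y p) •
      ∑ i ∈ Finset.range p, V p ^ i).det → Sj π (Nt (ψ p • A p) (V p) p) := fun p h =>
    sj_minor Sum.inr fun d => h (by
      rw [← hψ, mul_comm (ψ p), mul_smul, ← smul_sub, det_smul]
      exact Dvd.dvd.mul_left d _)
  by_cases hX : π ∣ X
  · refine .inl fun p => ?_
    obtain ⟨f, hf⟩ := ex_minor (un_cj (b := b) h1 p) (p0 p)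
      ((det_cj _).trans (En.cv_det e (En.ep_fb e.rep (σo p) (σ2 p) (σf b p))))
      ((det_cj _).trans (En.cv_det e (En.ep_inert e.rep (σo p) (σ2 p) (στ p)))) (nf_cj h1 p)
    refine sj_minor f fun d => hf ?_
    have := X_dvd_iff.1 ((hπ.associated_of_dvd X_prime hX).symm.dvd.trans d)
    rw [RingHom.map_det, RingHom.mapMatrix_apply, ← submatrix_map, Nt_map] at this
    convert this using 4
    · ext i j; simp [A, ψ1]
    · ext i j; simp [V]
  by_cases hE : ∃ p : e.σ, π ∣ (ξ p • A p - (1 + 2 * X : La) ^ (k * y p) •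
      ∑ i ∈ Finset.range p, V p ^ i).det
  · obtain ⟨p, hE⟩ := hE
    obtain ⟨a, a'⟩ := hy π hπ n2 hX p p.2 hE
    exact .inr ⟨hX, a, p, nz hπ n2 (ψu p) (p0 p) (un_cj h1 p) (ns_cj h1 h2 p),
      fun x n => sj x (a' x x.2 fun d => n (Subtype.ext d))⟩
  · exact .inl fun p => sj p fun d => hE ⟨p, d⟩

end Vale.Agent.P004F.Pa
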