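import Vale.Agent.P004F.Pa.St
import Vale.Agent.P004F.Pt.Kd
import Vale.Agent.P004F.Pr.Rep

/-! # P004F (FRAME), block PAT, row TWV: local vanishing at the primes of the conductor (helper4) -/

set_option linter.all false

open NumberField Matrix
open scoped Classical

noncomputable section

namespace Vale.Agent.P004F.Pa

open Vale.Agent.P022 Vale.Agent.P004K
open Vale.Agent.P027M.S (Inert)
open Vale.Agent.P022D.W (dec inP_le_dec conj_inP phi_mem exists_phi)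
open Vale.Agent.P022E.GW (Ov Fb)
open Vale.Agent.P022.H443 (inP)
open Vale.Agent.P022K.CH.Loc (WMod chi_data exists_tau)
open P004S (nu)
open P004T (ds)
open Pr (ac ac_add ac_smul ac_zero ac_sub add_ac mul_ac one_ac zero_ac)

namespace Tv

section alg

variable {G R M : Type} [Group G] [CommRing R] [AddCommGroup M] [Module R M]

theorem smul_ac (r : R) (A : M2 R) (x : Fin 2 → M) : ac (r • A) x = r • ac A x :=
  funext fun i => by simp only [ac, Matrix.smul_apply, smul_eq_mul, mul_smul, Pi.smul_apply,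
    Finset.smul_sum]

theorem sub_ac (A B : M2 R) (x : Fin 2 → M) : ac (A - B) x = ac A x - ac B x :=
  eq_sub_of_add_eq (by rw [← add_ac, sub_add_cancel])

theorem adj_ac (B : M2 R) (x : Fin 2 → M) : ac B (ac B.adjugate x) = B.det • x := by
  rw [← mul_ac, mul_adjugate, smul_ac, one_ac]

theorem det_kill {B : M2 R} {x : Fin 2 → M} (h : ac B x = 0) : B.det • x = 0 := by
  rw [← one_ac (R := R) x, ← smul_ac, ← adjugate_mul, mul_ac, h, ac_zero]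

/-- a cocycle of `D`; the subgroup `I` acts by scalars, the elements of `W` are wild -/
structure Lc (D I : Subgroup G) (W : G → Prop) (a : G → M2 R) (ψ : G → R) (x : G → Fin 2 → M) :
    Prop where
  le : I ≤ D
  one : ψ 1 = 1
  mul : ∀ g ∈ D, ∀ h ∈ D, ψ (g * h) = ψ g * ψ h
  am : ∀ g ∈ D, ∀ h ∈ D, a (g * h) = a g * a h
  sc : ∀ g ∈ I, a g = ψ g • 1
  coc : ∀ g ∈ D, ∀ h ∈ D, x (g * h) = x g + ac (a g) (x h)
  kl : ∀ w ∈ I, W w → ψ w = 1 ∧ x w = 0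

variable {D I : Subgroup G} {W : G → Prop} {a : G → M2 R} {ψ : G → R} {x : G → Fin 2 → M}
  (L : Lc D I W a ψ x) {g h : G}

include L

theorem Lc.act (hg : g ∈ I) (v : Fin 2 → M) : ac (a g) v = ψ g • v := by
  rw [L.sc g hg, smul_ac, one_ac]

theorem Lc.cm (hg : g ∈ D) (hh : h ∈ D) : ψ (g * h * (h * g)⁻¹) = 1 := by
  have m := D.mul_mem hh hg
  rw [L.mul _ (D.mul_mem hg hh) _ (D.inv_mem m), L.mul _ hg _ hh, mul_comm (ψ g),
    ← L.mul _ hh _ hg, ← L.mul _ m _ (D.inv_mem m), mul_inv_cancel, L.one]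

theorem Lc.key (hg : g ∈ D) (hh : h ∈ D) (k : g * h * (h * g)⁻¹ ∈ I) :
    ac (a g - 1) (x h) = x (g * h * (h * g)⁻¹) + ac (a h - 1) (x g) := by
  have e := L.coc _ (L.le k) _ (D.mul_mem hh hg)
  rw [inv_mul_cancel_right, L.act k, L.cm hg hh, one_smul, L.coc g hg h hh, L.coc h hh g hg] at e
  rw [sub_ac, sub_ac, one_ac, one_ac]
  linear_combination (norm := module) e

theorem Lc.cob (r : R) (m : Fin 2 → M) : Lc D I W a ψ fun g => r • x g - ac (a g - 1) m :=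
  { L with
    coc := fun g hg h hh => by
      simp only [L.coc g hg h hh, L.am g hg h hh, sub_ac, ac_sub, one_ac, mul_ac, ac_smul, smul_add]
      abel
    kl := fun w hw k => ⟨(L.kl w hw k).1, by
      rw [(L.kl w hw k).2, sub_ac, L.act hw, (L.kl w hw k).1, one_ac, one_smul, sub_self,
        smul_zero, sub_self]⟩ }

omit L in
theorem pw (le : I ≤ D) (one : ψ 1 = 1) (mul : ∀ g ∈ D, ∀ h ∈ D, ψ (g * h) = ψ g * ψ h)
    (sc : ∀ g ∈ I, a g = ψ g • 1) (coc : ∀ g ∈ D, ∀ h ∈ D, x (g * h) = x g + ac (a g) (x h))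
    (hg : g ∈ I) (n : ℕ) :
    ψ (g ^ n) = ψ g ^ n ∧ x (g ^ n) = (∑ i ∈ Finset.range n, ψ g ^ i) • x g := by
  induction n with
  | zero =>
    have := coc 1 D.one_mem 1 D.one_mem
    rw [mul_one, sc 1 I.one_mem, one, smul_ac, one_ac, one_smul] at this
    simpa [one] using this
  | succ n ih =>
    have m := le (I.pow_mem hg n)
    rw [pow_succ, mul _ m _ (le hg), coc _ m _ (le hg), sc _ (I.pow_mem hg n), smul_ac, one_ac,
      ih.1, ih.2, Finset.sum_range_succ, add_smul]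
    exact ⟨(pow_succ _ _).symm, rfl⟩

theorem Lc.pow (hg : g ∈ I) (n : ℕ) : x (g ^ n) = (∑ i ∈ Finset.range n, ψ g ^ i) • x g :=
  (pw L.le L.one L.mul L.sc L.coc hg n).2

theorem Lc.fst (hg : g ∈ I) (hh : h ∈ D) (n : ∀ h ∈ D, g * h * (h * g)⁻¹ ∈ I)
    (w : ∀ k ∈ I, W (g * k * (k * g)⁻¹)) :
    (ψ g - 1) ^ 2 • x h = ac (a h - 1) ((ψ g - 1) • x g) := by
  have k := n h hh
  have e1 := L.key (L.le hg) hh k
  have e2 := L.key (L.le hg) (L.le k) (n _ (L.le k))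
  rw [(L.kl _ (n _ (L.le k)) (w _ k)).2, sub_ac, sub_ac, L.act hg, L.act k, L.cm (L.le hg) hh,
    one_ac, one_ac] at e2
  rw [sub_ac, L.act hg, one_ac] at e1
  rw [ac_smul]
  linear_combination (norm := module) (ψ g - 1) • e1 + e2

theorem Lc.snd {Φ τ : G} {Q : ℕ} (hΦ : Φ ∈ D) (hτ : τ ∈ I) (m : Φ * τ * Φ⁻¹ * (τ ^ Q)⁻¹ ∈ I)
    (w : W (Φ * τ * Φ⁻¹ * (τ ^ Q)⁻¹)) (gen : ∀ s ∈ I, ∃ n : ℕ, W ((τ ^ n)⁻¹ * s))
    (ab : ∀ h ∈ D, Φ * h * (h * Φ)⁻¹ ∈ I) (r s : R) : ∃ v, ∀ h ∈ D,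
      (s + (r * ((a Φ - 1).det ^ 2 * (a Φ - (∑ i ∈ Finset.range Q, ψ τ ^ i) • 1).det) - s)) • x h =
        ac (a h - 1) v := by
  set N := ∑ i ∈ Finset.range Q, ψ τ ^ i
  have L1 := L.cob (a Φ - 1).det (ac (a Φ - 1).adjugate (x Φ))
  set y : G → Fin 2 → M := fun g =>
    (a Φ - 1).det • x g - ac (a g - 1) (ac (a Φ - 1).adjugate (x Φ)) with hy
  have y0 : y Φ = 0 := by rw [hy]; simp only [adj_ac, sub_self]
  have t := L.le (I.pow_mem hτ Q)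
  have e := L1.coc _ (L.le m) _ (D.mul_mem t hΦ)
  rw [show Φ * τ * Φ⁻¹ * (τ ^ Q)⁻¹ * (τ ^ Q * Φ) = Φ * τ by group, L1.coc _ hΦ _ (L.le hτ),
    (L1.kl _ m w).2, L1.act m, (L1.kl _ m w).1, L1.coc _ t _ hΦ, y0, ac_zero, L1.pow hτ] at e
  have y1 : (a Φ - N • 1).det • y τ = 0 := det_kill (by
    rw [sub_ac, smul_ac, one_ac]
    linear_combination (norm := module) e)
  have L2 := L1.cob (a Φ - N • 1).det 0
  simp only [ac_zero, sub_zero] at L2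
  have z : ∀ s ∈ I, (a Φ - N • 1).det • y s = 0 := fun s hs => by
    obtain ⟨n, k⟩ := gen s hs
    have m' := I.mul_mem (I.inv_mem (I.pow_mem hτ n)) hs
    have := L2.coc _ (L.le (I.pow_mem hτ n)) _ (L.le m')
    rwa [mul_inv_cancel_left, (L2.kl _ m' k).2, ac_zero, add_zero, L2.pow hτ, y1, smul_zero] at this
  refine ⟨(r * (a Φ - 1).det * (a Φ - N • 1).det) • ac (a Φ - 1).adjugate (x Φ), fun h hh => ?_⟩
  have k := L2.key hΦ hh (ab h hh)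
  rw [z _ (ab h hh), y0, smul_zero, ac_zero, add_zero] at k
  have k2 := det_kill k
  rw [hy] at k2
  rw [ac_smul]
  linear_combination (norm := module) r • k2

omit L in
theorem chi_sq {k : Type} [Monoid k] (χ : I →* k) {σ : G} {q : ℕ} (n : ∀ s ∈ I, σ * s * σ⁻¹ ∈ I)
    (h1 : ∀ g, χ g = 1 ↔ W g) (h2 : ∀ s ∈ I, W (σ * s * σ⁻¹ * (s ^ q)⁻¹)) {τ : G} (t : τ ∈ I) :
    W (σ * σ * τ * (σ * σ)⁻¹ * (τ ^ q ^ 2)⁻¹) := by
  have e : ∀ s : I, χ ⟨σ * s * σ⁻¹, n _ s.2⟩ = χ s ^ q := fun s => by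
    have := (h1 (⟨σ * s * σ⁻¹, n _ s.2⟩ * (s ^ q)⁻¹)).2 (h2 s s.2)
    rw [← map_pow, ← one_mul (χ (s ^ q)), ← this, ← map_mul, inv_mul_cancel_right]
  have := (h1 (⟨σ * (σ * τ * σ⁻¹) * σ⁻¹, n _ (n _ t)⟩ * (⟨τ, t⟩ ^ q ^ 2)⁻¹)).1 (by
    rw [map_mul, e ⟨_, n _ t⟩, e ⟨τ, t⟩, ← pow_mul, ← sq, ← map_pow, ← map_mul,
      mul_inv_cancel, map_one])
  rwa [show σ * σ * τ * (σ * σ)⁻¹ = σ * (σ * τ * σ⁻¹) * σ⁻¹ by group]

end alg

theorem cong {R : Type} [CommRing R] {𝔟 : Ideal R} {u t s : R} {Q m : ℕ} {B : M2 R}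
    (hu : u - 1 ∈ 𝔟) (ht : t - 1 ∈ 𝔟) (hQ : (Q : R) = 1) (k : (B - 1).det * s = 2 ^ m) :
    s ^ 3 * ((u • B - 1).det ^ 2 * (u • B - (∑ i ∈ Finset.range Q, t ^ i) • 1).det) -
      2 ^ (3 * m) ∈ 𝔟 := by
  have a := Ideal.Quotient.eq.2 hu
  have b := Ideal.Quotient.eq.2 ht
  have c : (Q : R ⧸ 𝔟) = 1 := by rw [← map_natCast (Ideal.Quotient.mk 𝔟), hQ, map_one]
  refine Ideal.Quotient.eq.1 ?_
  rw [pow_mul', ← k]
  simp [det_fin_two, a, b, c]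
  ring

theorem two_pow (j : ℕ) : (2 : Rj j) ^ j = 0 := by
  have : mj j (2 ^ j) = 0 := Ideal.Quotient.eq_zero_iff_mem.2 (Ideal.subset_span (by simp))
  rwa [map_pow, map_ofNat] at this

variable {q : ℕ} {P : Ideal (𝓞 Qb)} {σ h : GQ}

theorem com {n : ℕ} (f : ∀ x : 𝓞 Qb, σ • x - x ^ n ∈ P) (hh : h ∈ dec P) :
    σ * h * (h * σ)⁻¹ ∈ inP P := fun x => by
  obtain ⟨y, rfl⟩ : ∃ y, x = (h * σ) • y := ⟨_, (smul_inv_smul _ _).symm⟩
  have := P.sub_mem (f (h • y)) ((hh _).2 (f y))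
  rw [smul_sub, smul_pow', sub_sub_sub_cancel_right] at this
  rwa [mul_smul, inv_smul_smul, mul_smul, mul_smul]

theorem fb_sq (f : Fb q P σ) (x : 𝓞 Qb) : (σ * σ) • x - x ^ q ^ 2 ∈ P := by
  have := P.add_mem (f (σ • x)) (P.mem_of_dvd (sub_dvd_pow_sub_pow _ _ q) (f x))
  rwa [sub_add_sub_cancel, ← pow_mul, ← sq, ← mul_smul] at this

theorem wd_sq (o : Ov q P) (f : Fb q P σ) {τ : GQ} (t : τ ∈ inP P) (U : Subgroup GQ) [U.Normal]
    (hU : IsOpen (U : Set GQ)) : WMod q U (σ * σ * τ * (σ * σ)⁻¹ * (τ ^ q ^ 2)⁻¹) := by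
  obtain ⟨k, _, _, χ, -, h1, h2⟩ := chi_data U hU o
  exact chi_sq χ (fun s => conj_inP (phi_mem o.1 o.2.1 f)) h1 (h2 σ f) t

variable {e : Crv} {b : Fld e} {j c : ℕ} {Ψ : GQ → Rj j}

theorem lc (H : b.Chr j c Ψ) (o : Ov q P) (out : q ∉ e.S) (cop : ¬ q ∣ b.δ') {M : Type}
    [AddCommGroup M] [Module (Rj j) M] {T : Finset ℕ} {x : GQ → Fin 2 → M}
    (hx : Cc b.Γ T (b.aa j Ψ) x) : ∃ U : Subgroup GQ, U.Normal ∧ IsOpen (U : Set GQ) ∧
      Lc (b.Γ ⊓ dec P) (inP P) (WMod q U) (b.aa j Ψ) Ψ x := by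
  obtain ⟨W, hW, w⟩ := hx.lc
  obtain ⟨U, hU, le⟩ := P022K.G2.ex_lv (O := W ∩ Hc b.j c) (hW.inter
    ((H916.isOpen_GK b.j).inter (stabilizer_isOpen_of_isIntegral _))) ⟨one_mem _, one_mem _⟩
  have h2 := e.ne_two out
  have l : inP P ≤ b.Γ ⊓ dec P := fun g hg => ⟨b.inert_mem o h2 cop hg, inP_le_dec hg⟩
  have one := H.ker 1 (one_mem _)
  have mul : ∀ g ∈ b.Γ ⊓ dec P, ∀ h ∈ b.Γ ⊓ dec P, Ψ (g * h) = Ψ g * Ψ h :=
    fun g hg h hh => H.mul g hg.1 h hh.1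
  have coc : ∀ g ∈ b.Γ ⊓ dec P, ∀ h ∈ b.Γ ⊓ dec P, x (g * h) = x g + ac (b.aa j Ψ g) (x h) :=
    fun g hg h hh => hx.coc g hg.1 h hh.1
  have sc : ∀ g ∈ inP P, b.aa j Ψ g = Ψ g • 1 := fun g hg => by
    have n : nu (ds e.δ) g = 0 := P004S.nu_inert o h2 (fun d =>
      ((Nat.prime_iff_prime_int.1 o.1).dvd_or_dvd d).elim (fun d => ?_) fun d =>
        (e.bad q o.1 out).1 ((Int.natCast_dvd_natCast.1 d).mul_left _)) hg
    · simp [Fld.aa, Crv.rd, sd, n, e.r_inert o out hg]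
    · refine (Nat.prime_iff_prime_int.1 o.1).not_unit (isUnit_of_dvd_unit d ?_)
      rcases jacobiSym.eq_one_or_neg_one (a := -1) (b := e.δ) (by simp) with k | k <;>
        simp [P004Z.eps, k]
  have cp : ∀ m n : ℕ, (q ^ m).Coprime (2 ^ n) := fun m n =>
    ((Nat.coprime_primes o.1 Nat.prime_two).2 h2).pow _ _
  refine ⟨U, hU.nrm, hU.opn, l, one, mul, fun g hg h hh => Sq.aa_mul H hg.1 hh.1, sc, coc, ?_⟩
  rintro g hg ⟨m, hm⟩
  obtain ⟨p1, p2⟩ := pw l one mul sc coc hg (q ^ m)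
  have k : Ψ g = 1 := (pow_eq_one_iff_of_coprime (cp m (2 * j))).1
    ⟨p1.symm.trans (H.ker _ (le hm).2), H.ord g (l hg).1⟩
  have u : IsUnit ((q ^ m : ℕ) : Rj j) := by
    have := (cp m j).cast (R := Rj j)
    rwa [Nat.cast_pow 2, Nat.cast_ofNat, two_pow, isCoprime_zero_right] at this
  rw [w _ (le hm).1, k] at p2
  simp only [one_pow, Finset.sum_const, Finset.card_range, nsmul_eq_mul, mul_one] at p2
  exact ⟨k, (u.smul_eq_zero).1 p2.symm⟩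

end Tv

open Tv

/-- **row TWV** -/
theorem twv : TWV := fun e b m => ⟨3 * m, fun j c Ψ q P H G o => by
  refine ⟨fun g hg M _ _ T x hx => ?_, fun 𝔟 h𝔟 => ?_⟩
  · obtain ⟨U, n, hU, L⟩ := lc H o G.out G.cop hx
    refine ⟨_, fun h hh => L.fst hg hh (fun h hh => ?_) fun k hk => En.wd_comm o hg hk U n hU⟩
    rw [show g * h * (h * g)⁻¹ = g * (h * g⁻¹ * h⁻¹) by group]
    exact mul_mem hg (conj_inP hh.2 (inv_mem hg))
  obtain ⟨φ, f⟩ := exists_phi o.1 o.2.1 o.2.2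
  obtain ⟨τ, t, gen⟩ := exists_tau o
  have md := phi_mem o.1 o.2.1 f
  have hΦ : φ * φ ∈ b.Γ ⊓ dec P := ⟨by
    by_cases k : φ ∈ b.Γ
    · exact mul_mem k k
    · exact b.mul_out k k, mul_mem md md⟩
  have hτ : τ ∈ b.Γ ⊓ dec P := ⟨b.inert_mem o (e.ne_two G.out) G.cop t, inP_le_dec t⟩
  have d : (e.r (φ * φ) - 1).det = ((((q : ℤ) + 1) ^ 2 - e.a q ^ 2 : ℤ) : ℤ_[2]) := by
    have h1 : (e.r φ).trace = e.a q := (e.bad q o.1 G.out).2.2 φ ⟨P, o.2.1, o.2.2, f⟩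
    have h2 : (e.r φ).det = q := Subtype.ext (by
      have := (e.tr_fb o G.out f).2
      rw [P004S.ep, e.mt_rp, det_fin_two] at this
      rw [det_fin_two]
      exact_mod_cast this)
    push_cast
    rw [← h1, ← h2, map_mul]
    simp [det_fin_two, trace_fin_two, mul_apply, Fin.sum_univ_two]
    ring
  obtain ⟨s, hs⟩ : (e.r (φ * φ) - 1).det ∣ 2 ^ m :=
    (ValuationRing.dvd_total _ _).resolve_right fun k => G.gq (by
      rw [d] at k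
      exact_mod_cast (PadicInt.pow_p_dvd_int_iff (p := 2) m _).1 (by exact_mod_cast k))
  have q1 : ((q ^ 2 : ℕ) : Rj j) = 1 := by
    obtain ⟨k, ⟨-, hk⟩, z, rfl⟩ := G.typ
    have z0 : ((2 ^ j * z : ℕ) : Rj j) = 0 := by push_cast; rw [two_pow, zero_mul]
    rcases hk with ⟨-, hk⟩ | ⟨-, hk⟩
    · rw [hk] at z0
      push_cast at z0 ⊢
      linear_combination (q - 1 : Rj j) * z0
    · rw [← hk, Nat.cast_pow, Nat.cast_add, z0]; simp
  have A : b.aa j Ψ (φ * φ) = Ψ (φ * φ) • (e.r (φ * φ)).map (cj j) := by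
    have n : nu (ds e.δ) (φ * φ) = 0 := by
      rw [P004S.nu_mul]; generalize nu (ds e.δ) φ = x; revert x; decide
    simp only [Fld.aa, Crv.rd, sd, n, if_true, one_smul]
  have k3 : ((e.r (φ * φ)).map (cj j) - 1).det * cj j s = 2 ^ m := by
    have := congrArg (cj j) hs
    rw [map_pow, map_ofNat, map_mul, RingHom.map_det, map_sub, map_one] at this
    exact this.symm
  refine ⟨_, cong (h𝔟 _ hΦ) (h𝔟 τ hτ) q1 k3, fun M _ _ T x hx => ?_⟩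
  obtain ⟨U, n, hU, L⟩ := lc H o G.out G.cop hx
  rw [← A]
  exact L.snd hΦ t (mul_mem (conj_inP hΦ.2 t) (inv_mem (pow_mem t _)))
    (wd_sq o f t U hU) (gen U n hU) (fun h hh => com (fb_sq f) hh.2) _ _⟩

end Vale.Agent.P004F.Pa
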