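import Vale.Agent.P004F.Pa.St

/-! # P004F (FRAME), block PAT: three local rows with nonzero determinant -/

set_option linter.all false

open NumberField Matrix Filter PowerSeries
open scoped Classical

noncomputable section

namespace Vale.Agent.P004F.Pa

open Vale.Agent.P022
open Vale.Agent.P022D.W (dec)
open Vale.Agent.P022E.GW (Ov)
open P004T (ds)
open Pat (U Sy Im)

namespace Bt

variable (e : Crv) {l : ℕ} {P : Ideal (𝓞 Qb)}

/-- no local invariants -/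
theorem fix0 (o : Ov l P) {v : Fin 2 → ℤ_[2]} (h : ∀ g ∈ dec P, (e.rd g - 1) *ᵥ v = 0) : v = 0 := by
  have := En.noi (hq e.par.disc) l P (ds e.δ) (fun i => (v i : ℚ_[2])) o fun g hg => by
    funext i
    have k := h g hg
    rw [sub_mulVec, one_mulVec, sub_eq_zero] at k
    have := congrArg (fun x : ℤ_[2] => (x : ℚ_[2])) (congrFun k i)
    simp only [Crv.rd, sd, Crv.r, mulVec, dotProduct, Fin.sum_univ_two, Matrix.smul_apply] at this
    simp only [P004S.ac, P004S.sg, mulVec, dotProduct, Fin.sum_univ_two, En.mt_rep, Pi.smul_apply]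
    rw [← this]
    split_ifs <;> simp [add_comm]
  exact funext fun i => Subtype.ext (congrFun this i)

theorem rows (o : Ov l P) : ∃ g ∈ dec P, ∃ g' ∈ dec P, ∃ i i',
    (e.rd g - 1) i 0 * (e.rd g' - 1) i' 1 - (e.rd g - 1) i 1 * (e.rd g' - 1) i' 0 ≠ 0 := by
  by_contra c
  push Not at c
  have z : ∀ g ∈ dec P, ∀ i, (e.rd g - 1) i 0 = 0 := fun g hg i => by
    have := fix0 e o (v := ![-(e.rd g - 1) i 1, (e.rd g - 1) i 0]) fun g' hg' => funext fun i' => by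
      simp only [mulVec, dotProduct, Fin.sum_univ_two, cons_val_zero, cons_val_one, Pi.zero_apply]
      linear_combination c g hg g' hg' i i'
    exact congrFun this 1
  have := fix0 e o (v := ![1, 0]) fun g hg => funext fun i => by
    simp only [mulVec, dotProduct, Fin.sum_univ_two, cons_val_zero, cons_val_one, Pi.zero_apply,
      z g hg i, mul_zero, zero_mul, add_zero]
  exact one_ne_zero (congrFun this 0)

theorem ex_c {j : ℕ} (x : Rj j) : ∃ a, x - cj j a ∈ Ideal.span {mj j X} := by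
  obtain ⟨f, rfl⟩ := Ideal.Quotient.mk_surjective x
  refine ⟨constantCoeff f, Ideal.mem_span_singleton.2 ?_⟩
  rw [cj, RingHom.comp_apply, ← map_sub]
  exact map_dvd _ (X_dvd_iff.2 (by simp))

variable {e} (b : Fld e)

/-- the matrix at one level -/
def Mj {j : ℕ} (Ψ : GQ → Rj j) (ε : GQ → Fin 2 → Rj j) (g : Fin 3 → GQ) (is : Fin 3 → Fin 2) :
    Matrix (Fin 3) (Fin 3) (Rj j) :=
  .of fun i => Fin.snoc (α := fun _ => Rj j) ((b.aa j Ψ (g i) - 1) (is i)) (ε (g i) (is i))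

theorem lev {j : ℕ} {Ψ : GQ → Rj j} (ε : GQ → Fin 2 → Rj j)
    (hX : ∀ g ∈ b.Γ, Ψ g - 1 ∈ Ideal.span {mj j X}) {g₀ g₁ : GQ} (h0 : g₀ ∈ b.Γ) (h1 : g₁ ∈ b.Γ)
    (i₀ i₁ : Fin 2) : ∃ v, ∀ g ∈ b.Γ, ∀ i, (Mj b Ψ ε ![g₀, g₁, g] ![i₀, i₁, i]).det -
      (cj j ((e.rd g₀ - 1) i₀ 0 * (e.rd g₁ - 1) i₁ 1 - (e.rd g₀ - 1) i₀ 1 * (e.rd g₁ - 1) i₁ 0) *
        ε g i - cj j (((e.rd g - 1) *ᵥ v) i)) ∈ Ideal.span {mj j X} := by
  obtain ⟨x, hx⟩ := ex_c (ε g₀ i₀)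
  obtain ⟨y, hy⟩ := ex_c (ε g₁ i₁)
  refine ⟨![x * (e.rd g₁ - 1) i₁ 1 - (e.rd g₀ - 1) i₀ 1 * y,
    (e.rd g₀ - 1) i₀ 0 * y - x * (e.rd g₁ - 1) i₁ 0], fun g hg i => ?_⟩
  generalize Ideal.span {mj j X} = I at *
  have a : ∀ g ∈ b.Γ, ∀ i k, Ideal.Quotient.mk I ((b.aa j Ψ g - 1) i k) =
      Ideal.Quotient.mk I (cj j ((e.rd g - 1) i k)) := fun g hg i k => by
    rw [Ideal.Quotient.eq]
    have : (b.aa j Ψ g - 1) i k - cj j ((e.rd g - 1) i k) = (Ψ g - 1) * cj j (e.rd g i k) := by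
      simp only [Fld.aa, Matrix.sub_apply, Matrix.smul_apply, map_apply, smul_eq_mul, map_sub,
        one_apply]
      split_ifs <;> simp only [map_one, map_zero] <;> ring
    rw [this]
    exact I.mul_mem_right _ (hX g hg)
  rw [← Ideal.Quotient.eq] at hx hy ⊢
  have s : ∀ (f : Fin 2 → Rj j) (t : Rj j), Fin.snoc (α := fun _ => Rj j) f t 0 = f 0 ∧
    Fin.snoc (α := fun _ => Rj j) f t 1 = f 1 ∧ Fin.snoc (α := fun _ => Rj j) f t 2 = t :=
    fun _ _ => ⟨rfl, rfl, rfl⟩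
  simp only [Mj, det_fin_three, of_apply, (s _ _).1, (s _ _).2.1, (s _ _).2.2, cons_val_zero,
    cons_val_one, cons_val, map_sub, map_add, map_mul, a _ h0, a _ h1, a _ hg, hx, hy, mulVec,
    dotProduct, Fin.sum_univ_two]
  ring

end Bt

open Bt in
/-- **three local rows with nonzero determinant** -/
theorem bet (e : Crv) (b : Fld e) (c₀ : ℕ) (Ψ : ∀ j, GQ → Rj (j + 1))
    (ε : ∀ j, GQ → Fin 2 → Rj (j + 1))
    (hX : ∀ᶠ j in U, ∀ g ∈ b.Γ, Ψ j g - 1 ∈ Ideal.span {mj (j + 1) X})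
    (hf : ∀ᶠ j in U, ∀ k ≤ j + 1, ∀ (s : ℤ_[2]) (v : Fin 2 → ℤ_[2]),
      (∀ g ∈ dec (e.P 2), ∀ i, cj (j + 1) s * ε j g i - cj (j + 1) (((e.rd g - 1) *ᵥ v) i) ∈
        Ideal.span {(2 : Rj (j + 1)) ^ k, mj (j + 1) X}) → 2 ^ k ∣ 2 ^ c₀ * s) :
    ∃ (gs : Fin 3 → ℕ → b.Γ) (is : Fin 3 → Fin 2), (∀ i j, (gs i j : GQ) ∈ dec (e.P 2)) ∧
      det (Matrix.of fun i => Fin.snoc (α := fun _ => La)
        ((um (fun j => b.aa _ (Ψ j) (gs i j)) - 1) (is i)) (ur fun j => ε j (gs i j) (is i))) ≠ 0 := by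
  have le := b.le 2 e.two
  obtain ⟨g₀, h0, g₁, h1, i₀, i₁, hD⟩ := rows e (e.ov 2 e.two)
  generalize hd : (e.rd g₀ - 1) i₀ 0 * (e.rd g₁ - 1) i₁ 1 -
    (e.rd g₀ - 1) i₀ 1 * (e.rd g₁ - 1) i₁ 0 = D at hD
  obtain ⟨k, hk⟩ : ∃ k, ¬ (2 : ℤ_[2]) ^ (k + 1) ∣ 2 ^ c₀ * D := by
    by_contra c
    push Not at c
    refine mul_ne_zero (pow_ne_zero c₀ two_ne_zero) hD (C_injective ((Pat.Im_ext fun k => ?_).trans
      (map_zero _).symm))
    refine Ideal.mem_of_dvd _ ?_ (Pat.two_Im k)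
    rw [Pat.two_C]
    exact map_dvd _ ((pow_dvd_pow _ k.le_succ).trans (c k))
  have ex : ∀ᶠ j in U, ∃ x : dec (e.P 2) × Fin 2, (Mj b (Ψ j) (ε j) ![g₀, g₁, x.1] ![i₀, i₁, x.2]).det ∉
      Ideal.span {(2 : Rj (j + 1)) ^ (k + 1), mj (j + 1) X} :=
    (hX.and (hf.and (Pat.U_ge k))).mono fun j ⟨a, f, m⟩ => by
      by_contra c
      push Not at c
      obtain ⟨v, hv⟩ := lev b (ε j) a (le h0) (le h1) i₀ i₁
      rw [hd] at hv
      refine hk (f _ (Nat.succ_le_succ m) D v fun g hg i => ?_)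
      have := Ideal.sub_mem _ (c (⟨g, hg⟩, i))
        (Ideal.span_mono (Set.subset_insert _ _) (hv g (le hg) i))
      rwa [sub_sub_cancel] at this
  let x : ℕ → dec (e.P 2) × Fin 2 := fun j => if h : _ then Exists.choose
    (p := fun x : dec (e.P 2) × Fin 2 => (Mj b (Ψ j) (ε j) ![g₀, g₁, x.1] ![i₀, i₁, x.2]).det ∉
      Ideal.span {(2 : Rj (j + 1)) ^ (k + 1), mj (j + 1) X}) h else (1, 0)
  obtain ⟨i, hi⟩ := Pat.U_fin fun j => (x j).2
  let gs : Fin 3 → ℕ → b.Γ := ![fun _ => ⟨g₀, le h0⟩, fun _ => ⟨g₁, le h1⟩,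
    fun j => ⟨(x j).1, le (x j).1.2⟩]
  have eg : ∀ j, (fun i => (gs i j : GQ)) = ![g₀, g₁, (x j).1] := fun j => funext fun i => by
    fin_cases i <;> rfl
  refine ⟨gs, ![i₀, i₁, i], fun i j => ?_, fun z => ?_⟩
  · fin_cases i
    exacts [h0, h1, (x j).1.2]
  have q : um (fun j => Mj b (Ψ j) (ε j) (fun i => gs i j) ![i₀, i₁, i]) =
      Matrix.of fun i' => Fin.snoc (α := fun _ => La)
        ((um (fun j => b.aa _ (Ψ j) (gs i' j)) - 1) (![i₀, i₁, i] i'))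
        (ur fun j => ε j (gs i' j) (![i₀, i₁, i] i')) := by
    have u : ∀ A : ∀ j, M2 (Rj (j + 1)), um A - 1 = um fun j => A j - 1 := fun A => by
      rw [← Sy.succ.um_one]
      exact (Sy.succ.um_sub _ _).symm
    simp only [u]
    refine Matrix.ext fun i' t => ?_
    fin_cases t <;> rfl
  rw [← q, Sy.succ.um_det] at z
  obtain ⟨j, k1, k2, k3⟩ := (ex.and (hi.and (Sy.succ.ur_spec
    (fun j => (Mj b (Ψ j) (ε j) (fun i => gs i j) ![i₀, i₁, i]).det) (k + 1)))).exists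
  have k4 : (Mj b (Ψ j) (ε j) ![g₀, g₁, (x j).1] ![i₀, i₁, (x j).2]).det ∉
      Ideal.span {(2 : Rj (j + 1)) ^ (k + 1), mj (j + 1) X} := by
    simp only [x, dif_pos k1]
    exact k1.choose_spec
  obtain ⟨y, hy⟩ := Ideal.Quotient.mk_surjective
    (Mj b (Ψ j) (ε j) (fun i => gs i j) ![i₀, i₁, i]).det
  have := k3 y hy
  rw [z, sub_zero, Im, Ideal.mem_span_pair] at this
  obtain ⟨s, t, rfl⟩ := this
  refine k4 ?_
  rw [k2, ← eg, ← hy, Ideal.mem_span_pair]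
  exact ⟨mj _ s, mj _ (t * X ^ k), by simp only [map_add, map_mul, map_pow, map_ofNat]; ring⟩

end Vale.Agent.P004F.Pa
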