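import Vale.Agent.P004F.Pa.Ps
import Vale.Agent.P004F.Pt.Kd
import Vale.Agent.P004F.Ra.Lv
import Vale.Agent.P004F.Pat.Vec

/-! # P004F, block PAT, row GLB: the group of sequences (helper81) -/

set_option linter.all false

open NumberField Matrix Filter PowerSeries Submodule Set
open scoped Classical

noncomputable section

namespace Vale.Agent.P004F.Pa

open Vale.Agent.P022 Vale.Agent.P004K
open Vale.Agent.P027M.S (Inert)
open Vale.Agent.P022D.W (dec)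
open Vale.Agent.P022E.GW (Ov Fb Gn)
open P004S (nu nu_mul nu_inv nu_conj)
open P004T (ds)
open Pat (U Sy)
open Ra (rj c_sq c_inv)

namespace Gb

variable {e : Crv} {b : Fld e}

/-! ### one level -/

/-- the representation modulo `2 ^ n` -/
def rq (e : Crv) (n : ℕ) : GQ →* M2 (ℤ_[2] ⧸ Ideal.span {(2 : ℤ_[2]) ^ n}) :=
  (RingHom.mapMatrix (Ideal.Quotient.mk _)).toMonoidHom.comp e.r

theorem rq_one {n : ℕ} {g : GQ} : rq e n g = 1 ↔ ∀ i i', (2 : ℤ_[2]) ^ n ∣ (e.r g - 1) i i' := by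
  rw [← sub_eq_zero, ← map_one (RingHom.mapMatrix (Ideal.Quotient.mk _)),
    show rq e n g = RingHom.mapMatrix (Ideal.Quotient.mk _) (e.r g) from rfl, ← map_sub,
    ← Matrix.ext_iff]
  exact forall₂_congr fun i i' => Ideal.Quotient.eq_zero_iff_mem.trans Ideal.mem_span_singleton

theorem rq_of {n : ℕ} {g : GQ} (h : e.r g = 1) : rq e n g = 1 :=
  (congrArg (RingHom.mapMatrix (Ideal.Quotient.mk _)) h).trans (map_one _)

theorem cj_mem {g : GQ} (h : g ∈ b.Γ) : b.c * g * b.c ∈ b.Γ := by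
  simpa only [c_inv] using b.Γ_conj h b.c

variable {j c n : ℕ} {Ψ : GQ → Rj j} {g h : GQ}

/-- the exact conditions -/
def Hl (e : Crv) (Ψ : GQ → Rj j) (n : ℕ) (h : GQ) : Prop :=
  rq e n h = 1 ∧ nu (ds e.δ) h = 0 ∧ Ψ h = 1

section
variable (k : b.Chr j c Ψ)
include k

theorem ps_one : Ψ 1 = 1 := k.ker 1 (one_mem _)

theorem ps_inv (m : g ∈ b.Γ) : Ψ g * Ψ g⁻¹ = 1 := by
  rw [← k.mul g m _ (inv_mem m), mul_inv_cancel, ps_one k]

theorem ps_cj (r1 : RC1) (m : g ∈ b.Γ) : Ψ (b.c * g * b.c) = Ψ g⁻¹ := by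
  have := Ra.psi_cj r1 k b.c_out m
  rw [c_inv] at this
  rw [← mul_one (Ψ _), ← ps_inv k m, ← mul_assoc, this, one_mul]

theorem ps_conj (m : g ∈ b.Γ) (m' : h ∈ b.Γ) : Ψ (g * h * g⁻¹) = Ψ h := by
  rw [k.mul _ (mul_mem m m') _ (inv_mem m), k.mul _ m _ m', mul_right_comm, ps_inv k m, one_mul]

theorem Hl.one : Hl e Ψ n 1 := ⟨map_one _, P004S.nu_one _, ps_one k⟩

theorem Hl.mul (m : g ∈ b.Γ) (m' : h ∈ b.Γ) (x : Hl e Ψ n g) (y : Hl e Ψ n h) :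
    Hl e Ψ n (g * h) :=
  ⟨by rw [map_mul, x.1, y.1, mul_one], by rw [nu_mul, x.2.1, y.2.1, add_zero],
    by rw [k.mul _ m _ m', x.2.2, y.2.2, mul_one]⟩

theorem Hl.inv (m : g ∈ b.Γ) (x : Hl e Ψ n g) : Hl e Ψ n g⁻¹ :=
  ⟨(rq e n).ker.inv_mem x.1, (nu_inv _ _).trans x.2.1, by simpa [x.2.2] using ps_inv k m⟩

theorem Hl.conj (m : g ∈ b.Γ) (m' : h ∈ b.Γ) (x : Hl e Ψ n h) : Hl e Ψ n (g * h * g⁻¹) :=
  ⟨(rq e n).normal_ker.conj_mem h x.1 g, (nu_conj _ _ _).trans x.2.1, (ps_conj k m m').trans x.2.2⟩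

theorem Hl.th (r1 : RC1) (m : h ∈ b.Γ) (x : Hl e Ψ n h) : Hl e Ψ n (b.c * h * b.c) :=
  ⟨by simpa only [c_inv, MonoidHom.mem_ker] using (rq e n).normal_ker.conj_mem h x.1 b.c,
    by simpa only [c_inv] using (nu_conj _ b.c _).trans x.2.1,
    (ps_cj k r1 m).trans (x.inv k m).2.2⟩

theorem Hl.comm (m : g ∈ b.Γ) (m' : h ∈ b.Γ) (x : e.r g = 1) : Hl e Ψ n (g * h * g⁻¹ * h⁻¹) := by
  refine ⟨?_, ?_, ?_⟩
  · have := rq_of (n := n) x
    rw [mul_assoc, mul_assoc, ← mul_assoc h]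
    exact (rq e n).ker.mul_mem this ((rq e n).normal_ker.conj_mem _ (inv_mem this) h)
  · rw [nu_mul, nu_conj, nu_inv]; exact CharTwo.add_self_eq_zero _
  · rw [k.mul _ (b.Γ_conj m' g) _ (inv_mem m'), ps_conj k m m', ps_inv k m']

theorem ps_unr (r2 : RC2) {l : ℕ} {P : Ideal (𝓞 Qb)} (o : Ov l P) (hl : l ∈ e.S) (m : g ∈ b.Γ)
    (i : Inert P g) : Ψ g = 1 :=
  k.ker g (Ra.unr_hc r2 b.iq (Ra.Chr.pos k) o
    (fun d => (k.cop l (Nat.mem_primeFactors.2 ⟨o.1, d, k.sq.ne_zero⟩)).1 hl) m i)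

end

/-! ### sequences -/

/-- the conjugation by `c` -/
def th (b : Fld e) : (ℕ → b.Γ) →* (ℕ → b.Γ) where
  toFun g j := ⟨b.c * g j * b.c, cj_mem (g j).2⟩
  map_one' := funext fun j => Subtype.ext (by simp [c_sq])
  map_mul' g h := funext fun j => Subtype.ext (by
    show b.c * (g j * h j) * b.c = b.c * g j * b.c * (b.c * h j * b.c)
    rw [show b.c * g j * b.c * (b.c * h j * b.c) = b.c * g j * (b.c * b.c) * h j * b.c by group, c_sq]
    group)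

theorem th_th (g : ℕ → b.Γ) : th b (th b g) = g := funext fun j => Subtype.ext (by
  show b.c * (b.c * g j * b.c) * b.c = g j
  rw [show b.c * (b.c * g j * b.c) * b.c = b.c * b.c * g j * (b.c * b.c) by group, c_sq]
  group)

variable (s : Sq b)

theorem hs_iff {h : ℕ → b.Γ} : s.Hs h ↔ ∀ᶠ j in U, Hl e (s.Ψ j) (j + 2) (h j) :=
  eventually_congr (.of_forall fun j => and_congr_left' rq_one.symm)

/-- the subgroup of the exact conditions -/
def Hg : Subgroup (ℕ → b.Γ) where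
  carrier := {h | s.Hs h}
  one_mem' := (hs_iff s).2 (s.chr.mono fun j k => .one k)
  mul_mem' {g h} x y := (hs_iff s).2 ((s.chr.and (((hs_iff s).1 x).and ((hs_iff s).1 y))).mono
    fun j k => k.2.1.mul k.1 (g j).2 (h j).2 k.2.2)
  inv_mem' {g} x := (hs_iff s).2 ((s.chr.and ((hs_iff s).1 x)).mono fun j k => k.2.inv k.1 (g j).2)

theorem mem_H {n : ℕ} (h : ℕ → b.Γ) : h ∈ (s.γ n).H ↔ s.Hs h :=
  SetLike.ext_iff.1 (Subgroup.closure_eq (Hg s)) h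

theorem mem_H' {n : ℕ} {h : ℕ → b.Γ} : h ∈ (s.γ n).H ↔ ∀ᶠ j in U, Hl e (s.Ψ j) (j + 2) (h j) :=
  (mem_H s h).trans (hs_iff s)

theorem nH (n : ℕ) : (s.γ n).H.Normal := ⟨fun h x g => (mem_H' s).2
  ((s.chr.and ((mem_H' s).1 x)).mono fun j k => k.2.conj k.1 (g j).2 (h j).2)⟩

theorem θH (r1 : RC1) (n : ℕ) : ∀ h ∈ (s.γ n).H, th b h ∈ (s.γ n).H := fun h x => (mem_H' s).2
  ((s.chr.and ((mem_H' s).1 x)).mono fun j k => k.2.th k.1 r1 (h j).2)

theorem um_one : um (fun j => (1 : M2 (Rj (j + 1)))) = 1 := Sy.succ.um_one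

theorem ρH (n : ℕ) : ∀ h ∈ (s.γ n).H, s.ρ h = 1 := fun h x =>
  (Sy.succ.um_ae (((mem_H s h).1 x).mono fun j k => Ra.aa_one k.2.2 k.2.1
    (Ra.rj_one fun i i' => (pow_dvd_pow _ (Nat.le_succ _)).trans (k.1 i i')))).trans um_one

/-- the limit of the characters -/
def ψ (g : ℕ → b.Γ) : La := ur fun j => s.Ψ j (g j)

theorem ψ_inv (g : ℕ → b.Γ) : ψ s g * ψ s g⁻¹ = 1 := by
  rw [ψ, ψ, ← map_mul, ← map_one ur]
  exact Sy.succ.ur_ae (s.chr.mono fun j k => ps_inv k (g j).2)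

theorem ψ_th (r1 : RC1) (g : ℕ → b.Γ) : ψ s (th b g) = ψ s g⁻¹ :=
  Sy.succ.ur_ae (s.chr.mono fun j k => ps_cj k r1 (g j).2)

theorem ur_mj (a : La) : ur (fun j => mj (j + 1) a) = a := Sy.succ.ur_const a

theorem ψ_X (g : ℕ → b.Γ) : constantCoeff (ψ s g) = 1 := by
  have := Sy.succ.ur_dvd (a := fun j => mj (j + 1) X) (b := fun j => s.Ψ j (g j) - 1)
    (.of_forall fun j => X_ps ..)
  rw [show Sy.succ.ur (fun j => s.Ψ j (g j) - 1) = ψ s g - 1 from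
    (map_sub ur _ 1).trans (by rw [map_one]; rfl), Sy.succ.ur_const, X_dvd_iff, map_sub, map_one,
    sub_eq_zero] at this
  exact this

/-- the representation with constant coefficients -/
def rc (e : Crv) : GQ →* M2 La := (RingHom.mapMatrix (C : ℤ_[2] →+* La)).toMonoidHom.comp e.r

theorem rc_apply (g : GQ) : rc e g = (e.r g).map C := rfl

/-- the action of a sequence on which the constant data are constant -/
theorem ρ_eq {g : ℕ → b.Γ} {x : GQ} (h : ∀ᶠ j in U, e.r (g j) = e.r x ∧ sd (ds e.δ) (g j) = sd (ds e.δ) x) :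
    s.ρ g = (ψ s g * sd (ds e.δ) x) • rc e x := by
  refine (Sy.succ.um_ae (B := fun j => (s.Ψ j (g j) * mj (j + 1) (sd (ds e.δ) x)) •
    (rc e x).map (mj (j + 1))) (h.mono fun j k => ?_)).trans ?_
  · rw [Ra.aa_eq, Ra.rj_apply, k.1, k.2, map_intCast, rc_apply, Matrix.map_map]; rfl
  · rw [Sy.succ.um_smul, Sy.succ.um_const]
    exact congrArg (· • rc e x) ((map_mul ur _ _).trans (congrArg _ (ur_mj _)))

/-- constant sequences -/
def kk (b : Fld e) : b.Γ →* (ℕ → b.Γ) := Pi.constMonoidHom ℕ _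

theorem ρ_kk (g : b.Γ) : s.ρ (kk b g) = (ψ s (kk b g) * sd (ds e.δ) g) • rc e g :=
  ρ_eq s (.of_forall fun j => ⟨rfl, rfl⟩)

theorem sd_cj (g : GQ) : sd (ds e.δ) (b.c * g * b.c) = sd (ds e.δ) g := by
  simpa only [c_inv] using Ra.sd_conj (ds e.δ) b.c g

theorem ρ_th (r1 : RC1) (g : b.Γ) :
    s.ρ (th b (kk b g)) = (ψ s (kk b g⁻¹) * sd (ds e.δ) g) • (rc e b.c * rc e g * rc e b.c) := by
  have k : ∀ j, (th b (kk b g) j : GQ) = b.c * g * b.c := fun j => rfl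
  rw [ρ_eq s (x := b.c * g * b.c) (.of_forall fun j => by rw [k]; exact ⟨rfl, rfl⟩), ψ_th s r1,
    sd_cj, map_mul, map_mul, map_inv]

theorem ψ_unr (r2 : RC2) {l : ℕ} {P : Ideal (𝓞 Qb)} (o : Ov l P) (hl : l ∈ e.S) {g : b.Γ}
    (i : Inert P g) : ψ s (kk b g) = 1 :=
  (Sy.succ.ur_ae (s.chr.mono fun j k => ps_unr k r2 o hl g.2 i)).trans (map_one ur)

end Gb

end Vale.Agent.P004F.Pa
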