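import Vale.Agent.P004F.Pa.Glb0

/-! # P004F, block PAT, row GLB: the global fields and the odd places (helper81) -/

set_option linter.all false

open NumberField Matrix Filter PowerSeries Submodule Set
open scoped Classical

noncomputable section

namespace Vale.Agent.P004F.Pa

open Vale.Agent.P022 Vale.Agent.P004K
open Vale.Agent.P027M.S (Inert)
open Vale.Agent.P022D.W (dec inP_le_dec phi_mem)
open Vale.Agent.P022E.GW (Ov Fb Gn)
open P004S (nu nu_mul nu_inv nu_conj)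
open P004T (ds)
open Pat (U Sy)
open Ra (rj c_sq c_inv)

namespace Gb

variable {e : Crv} {b : Fld e} (s : Sq b)

theorem ds_spec (e : Crv) : ds e.δ % 4 = 1 ∧ (ds e.δ).natAbs = e.δ := by
  unfold ds P004Z.eps
  rw [jacobiSym.at_neg_one e.ok.odd]
  rcases Nat.odd_mod_four_iff.1 (Nat.odd_iff.1 e.ok.odd) with k | k
  · rw [ZMod.χ₄_nat_one_mod_four k]; omega
  · rw [ZMod.χ₄_nat_three_mod_four k]; omega

/-- an element of inertia at a prime of the twist -/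
theorem ex_z (b : Fld e) : ∃ l ∈ e.S, ∃ P, ∃ z : b.Γ, Ov l P ∧ Inert P z ∧ e.r z = 1 ∧
    sd (ds e.δ) z = -1 := by
  obtain ⟨l, hl, d⟩ := Nat.exists_prime_and_dvd e.ok.one.ne'
  have m : l ∈ e.S := by_contra fun c => (e.bad l hl c).1 (d.mul_left _)
  have h2 : l ≠ 2 := by
    rintro rfl
    exact (Nat.not_even_iff_odd.2 e.ok.odd) (even_iff_two_dvd.2 d)
  have t := e.gn l m h2
  refine ⟨l, m, _, ⟨e.τ l, b.le l m (inP_le_dec t.1)⟩, e.ov l m, t.1, e.ur l d _ (e.ov l m) _ t.1,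
    if_neg ?_⟩
  rw [P004S.nu_tau (e.ov l m) h2 (Int.squarefree_natAbs.1 (by rw [(ds_spec e).2]; exact e.ok.sq))
    (Int.natCast_dvd.2 (by rw [(ds_spec e).2]; exact d)) t]
  exact one_ne_zero

theorem rc_one {g : GQ} (h : e.r g = 1) : rc e g = 1 :=
  (congrArg (RingHom.mapMatrix (C : ℤ_[2] →+* La)) h).trans (map_one _)

theorem sah (r2 : RC2) (n : ℕ) : ∃ z, s.ρ z = -1 ∧ ∀ g, z * g * z⁻¹ * g⁻¹ ∈ (s.γ n).H := by
  obtain ⟨l, m, P, z, o, i, h1, h2⟩ := ex_z b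
  refine ⟨kk b z, ?_, fun g => (mem_H' s).2 (s.chr.mono fun j k => .comm k z.2 (g j).2 h1)⟩
  rw [ρ_kk, ψ_unr s r2 o m i, h2, rc_one h1]
  simp

theorem sd_sq (g : GQ) : (sd (ds e.δ) g : La) * sd (ds e.δ) g = 1 := by
  rw [← Int.cast_mul, Ra.sd_sq, Int.cast_one]

theorem rc_mem (g : b.Γ) : rc e g ∈ span La (range s.ρ) := by
  have := smul_mem _ (ψ s (kk b g)⁻¹ * sd (ds e.δ) g)
    (subset_span (R := La) (mem_range_self (f := s.ρ) (kk b g)))
  rwa [ρ_kk, smul_smul, mul_mul_mul_comm, mul_comm (ψ s _), ψ_inv, sd_sq, one_mul, one_smul] at this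

theorem spn (ha : ABS) : ∃ c, ∀ n, c ≤ n → ∀ B, (2 : La) ^ n • B ∈ span La (range s.ρ) := by
  obtain ⟨c, h⟩ := ha e b
  have k : ∀ A ∈ span ℤ_[2] (e.r '' b.Γ), A.map C ∈ span La (range s.ρ) := fun A hA => by
    induction hA using span_induction with
    | mem _ m => obtain ⟨g, m, rfl⟩ := m; exact rc_mem s ⟨g, m⟩
    | zero => rw [Matrix.map_zero _ (map_zero _)]; exact zero_mem _
    | add _ _ _ _ x y => rw [Matrix.map_add _ (map_add _)]; exact add_mem x y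
    | smul r _ _ x => rw [Matrix.map_smul' _ _ _ (map_mul _)]; exact smul_mem _ _ x
  refine ⟨c, fun n le B => ?_⟩
  obtain ⟨d, rfl⟩ := Nat.exists_eq_add_of_le le
  rw [matrix_eq_sum_single B, Finset.smul_sum]
  refine sum_mem fun i _ => ?_
  rw [Finset.smul_sum]
  refine sum_mem fun j _ => ?_
  have := smul_mem _ (2 ^ d * B i j) (k _ (h (single i j 1)))
  rw [Matrix.map_smul' _ _ _ (map_mul _), map_single, map_one, ← Pat.two_C, smul_smul,
    smul_single] at this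
  rwa [smul_single, smul_eq_mul, show (2 : La) ^ (c + d) * B i j = (2 ^ d * B i j * 2 ^ c) • 1 by
    rw [smul_eq_mul]; ring]

theorem sd_ne (g : GQ) : (sd (ds e.δ) g : ℤ_[2]) ≠ 0 := by unfold sd; split <;> simp

theorem nis (r1 : RC1) (ha : ABS) : ∃ g i j, ¬ X ∣ (s.ρ (th b g) - s.ρ g) i j := by
  by_contra h
  push Not at h
  obtain ⟨c, hc⟩ := ha e b
  have k : ∀ A ∈ span ℤ_[2] (e.r '' b.Γ), e.r b.c * A * e.r b.c = A := fun A hA => by
    induction hA using span_induction with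
    | mem _ m =>
      obtain ⟨g, m, rfl⟩ := m
      ext1 i j
      have := X_dvd_iff.1 (h (kk b ⟨g, m⟩) i j)
      rw [ρ_th s r1, ρ_kk, ← map_mul (rc e), ← map_mul (rc e)] at this
      simp only [Matrix.sub_apply, Matrix.smul_apply, smul_eq_mul, map_sub, RingHom.map_mul, ψ_X,
        one_mul, map_intCast, rc_apply, map_apply, constantCoeff_C] at this
      rw [← mul_sub, mul_eq_zero, sub_eq_zero, map_mul, map_mul] at this
      exact this.resolve_left (sd_ne g)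
    | zero => simp
    | add _ _ _ _ x y => rw [mul_add, add_mul, x, y]
    | smul r _ _ x => rw [mul_smul_comm, smul_mul_assoc, x]
  have d : (e.r b.c).det = -1 := P004M.TE.det_conj _ b.cc
  have a1 := congrFun₂ (k _ (hc (single 0 1 1))) 0 1
  have a2 := congrFun₂ (k _ (hc (single 0 0 1))) 1 1
  rw [det_fin_two] at d
  simp [mul_apply, single_apply] at a1 a2
  refine pow_ne_zero (c + 1) (two_ne_zero (α := ℤ_[2])) ?_
  rcases a2 with a2 | a2 <;> rw [a2] at d <;> linear_combination 2 ^ c * d - a1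

theorem gen (r1 : RC1) (r2 : RC2) : ∃ g, ∃ a a' : La, s.ρ g = a • 1 ∧ s.ρ (th b g) = a' • 1 ∧
    ∀ π, Prime π → π ∣ a - a' → π ∣ 2 * X := by
  obtain ⟨g, h⟩ := Pat.U_ch (α := fun _ => b.Γ) (P := fun j g => e.r g = 1 ∧ nu (ds e.δ) g = 0 ∧
      s.Ψ j g ^ 2 - 1 ∣ mj (j + 1) (2 ^ (s.m + 1) * X)) ((s.tw.and s.pe).mono fun j k => by
    obtain ⟨v, -, q⟩ := k.2.xq
    obtain ⟨P, o⟩ := P004R.Mu.ex_pl q.pr
    obtain ⟨g, i, n⟩ := k.2.ram P o
    have m := b.inert_mem o (e.ne_two k.2.gp.out) q.cop i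
    refine ⟨⟨g, m⟩, e.r_inert o k.2.gp.out i, Ra.nu_inert o k.2.gp.out i, ?_⟩
    have := k.1.ker g (Ra.unr_hc r2 b.iq (zero_lt_one.trans k.1.one) o (fun d => q.out
      (Finset.mem_union_right _ (Nat.mem_primeFactors.2 ⟨o.1, d, k.1.sq.ne_zero⟩))) m i)
    rw [Sq.Ψ, ps, map_mul, mj_pow X_Im1 this, one_mul, ← map_pow, ← pow_mul, ← map_one (mj _),
      ← map_sub]
    exact map_dvd _ (pw_dvd _ _ fun d => n (Nat.dvd_of_mul_dvd_mul_right two_pos d)))
  have k : ∀ x : ℕ → b.Γ, (∀ᶠ j in U, e.r (x j) = 1 ∧ nu (ds e.δ) (x j) = 0) → s.ρ x = ψ s x • 1 :=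
    fun x hx => by
      rw [ρ_eq s (x := 1) (hx.mono fun j k => ⟨k.1.trans (map_one _).symm, by
        rw [Ra.sd_zero k.2, Ra.sd_zero (P004S.nu_one _)]⟩), Ra.sd_zero (P004S.nu_one _), map_one,
        Int.cast_one, mul_one]
  refine ⟨g, _, _, k g (h.mono fun j k => ⟨k.1, k.2.1⟩), k _ (h.mono fun j k => ⟨?_, ?_⟩),
    fun π p d => ?_⟩
  · show e.r (b.c * g j * b.c) = 1
    rw [map_mul, map_mul, k.1, mul_one, ← map_mul, c_sq, map_one]
  · show nu _ (b.c * g j * b.c) = 0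
    simpa only [c_inv] using (nu_conj _ b.c _).trans k.2.1
  · have := Sy.succ.ur_dvd (h.mono fun j k => k.2.2)
    rw [Sy.succ.ur_const, show Sy.succ.ur (fun j => s.Ψ j (g j) ^ 2 - 1) = ψ s g ^ 2 - 1 from
      (map_sub ur _ 1).trans (by rw [map_one]; exact congrArg (· - 1) (map_pow ur _ 2)),
      ← ψ_inv s g, ← ψ_th s r1, sq, ← mul_sub] at this
    exact (p.dvd_or_dvd ((d.mul_left _).trans this)).elim
      (fun k => (p.dvd_of_dvd_pow k).mul_right _) fun k => k.mul_left _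

/-! ### the odd strict places -/

/-- the matrices with rows in `N` -/
def Rs (N : Submodule La (Fin 2 → La)) : Submodule La (M2 La) where
  carrier := {M | ∀ i, M i ∈ N}
  add_mem' h k i := N.add_mem (h i) (k i)
  zero_mem' i := N.zero_mem
  smul_mem' c _ h i := N.smul_mem c (h i)

theorem Rs.mul {N : Submodule La (Fin 2 → La)} (E : M2 La) {M : M2 La} (h : M ∈ Rs N) :
    E * M ∈ Rs N := fun i => Pat.vm_mem h (E i)

theorem Rs.rows {N : Submodule La (Fin 2 → La)} {M M' : M2 La} (h : M ∈ Rs N) (h' : M' ∈ Rs N) (i) :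
    fromRows M M' i ∈ N := i.rec h h'

theorem Rs.au {G : Type} [Group G] (ρ : G →* M2 La) {D : Set G} {g : G} (h : g ∈ D) :
    ρ g - 1 ∈ Rs (Au ρ D) := fun i => subset_span ⟨g, h, i, rfl⟩

theorem tj {A : Type} [CommRing A] {M M' : M2 A} (h : M * M' = 1) :
    Mᵀ * !![0, 1; -1, 0] = M.det • (!![0, 1; -1, 0] * M') := by
  have : Mᵀ * !![0, 1; -1, 0] * M = M.det • !![0, 1; -1, 0] := by
    ext i j
    fin_cases i <;> fin_cases j <;> simp [mul_apply, det_fin_two] <;> ring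
  rw [← smul_mul_assoc, ← this, mul_assoc, h, mul_one]

theorem um_pow (A : ∀ j, M2 (Rj (j + 1))) (n : ℕ) : um (fun j => A j ^ n) = um A ^ n := by
  induction n with
  | zero => exact um_one
  | succ n ih => simp only [pow_succ]; rw [← ih]; exact Sy.succ.um_mul _ _

theorem um_Nt (A B : ∀ j, M2 (Rj (j + 1))) (q : ℕ) :
    um (fun j => Nt (A j) (B j) q) = Nt (um A) (um B) q := by
  have k : ∀ A B : ∀ j, M2 (Rj (j + 1)), um (fun j => fromCols (A j) (B j)) = fromCols (um A) (um B) :=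
    fun A B => Matrix.ext fun i k => k.rec (fun _ => rfl) fun _ => rfl
  simp only [Nt, k, um, Sy.um_sub, Sy.um_sum, Sy.um_one]
  simp only [← um_pow]

theorem det_r (g : GQ) : P004S.ep e.rp g = (e.r g).det := by
  rw [P004S.ep, P004S.mt, Crv.rp, P004M.TE.rep_val, ← RingHom.map_det]; rfl

theorem det_rc {g : GQ} {n : ℕ} (h : P004S.ep e.rp g = n) : (rc e g).det = n := by
  have : (e.r g).det = n := Subtype.ext ((det_r g).symm.trans h)
  rw [← map_natCast (C : ℤ_[2] →+* La), ← this, RingHom.map_det]; rfl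

theorem ρ_tr (r1 : RC1) (g : b.Γ) : (s.ρ (th b (kk b g)))ᵀ * ((rc e b.c)ᵀ * !![0, 1; -1, 0]) =
    (rc e g).det • ((rc e b.c)ᵀ * !![0, 1; -1, 0] * s.ρ (kk b g⁻¹)) := by
  have a : (rc e b.c)ᵀ * (rc e b.c)ᵀ = 1 := by
    rw [← transpose_mul, ← map_mul, c_sq, map_one, transpose_one]
  have k : sd (ds e.δ) (g⁻¹ : b.Γ) = sd (ds e.δ) g := by
    unfold sd; rw [Subgroup.coe_inv, nu_inv]
  rw [ρ_th s r1, ρ_kk, k, transpose_smul, transpose_mul, transpose_mul, smul_mul_assoc,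
    mul_smul_comm, smul_comm, mul_assoc, mul_assoc (rc e g)ᵀ, ← mul_assoc (rc e b.c)ᵀ (rc e b.c)ᵀ, a,
    one_mul, tj (M' := rc e (g⁻¹ : b.Γ)) (by simp [← map_mul]), mul_smul_comm, mul_assoc]

theorem ap (r1 : RC1) (n : ℕ) (x : e.σ) : ∃ E : M2 La, IsUnit E.det ∧
    ∀ i, (((s.γ n).N x)ᵀ * E) i ∈ Au s.ρ ((s.γ n).D x) := by
  obtain ⟨m, h2, -⟩ := Finset.mem_filter.1 x.2
  replace m : x.1 ∈ e.S := List.mem_of_mem_filter (List.mem_toFinset.1 m)
  have o := e.ov _ m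
  have f : Fb x (e.P x) (b.φ x) := b.ch.frb _ m
  have t := (e.gn _ m h2).1
  have dφ := phi_mem o.1 o.2.1 f
  let φ : b.Γ := ⟨b.φ x, b.le _ m dφ⟩
  let τ : b.Γ := ⟨e.τ x, b.le _ m (inP_le_dec t)⟩
  have e0 : (s.γ n).N x = Nt (s.ρ (th b (kk b φ))) (s.ρ (th b (kk b τ))) x := um_Nt _ _ _
  have au : ∀ g : b.Γ, (g : GQ) ∈ dec (e.P x) → s.ρ (kk b g⁻¹) - 1 ∈ Rs (Au s.ρ ((s.γ n).D x)) :=
    fun g hg => Rs.au _ fun j => inv_mem hg
  obtain ⟨E, hE⟩ : ∃ E, E = (rc e b.c)ᵀ * !![0, 1; -1, 0] := ⟨_, rfl⟩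
  have e1 : ∀ i : ℕ, (s.ρ (th b (kk b τ)) ^ i)ᵀ * E = E * s.ρ (kk b (τ ^ i)⁻¹) := fun i => by
    rw [← map_pow, ← map_pow, ← map_pow, hE, ρ_tr s r1, det_rc (n := 1)
      (by simpa using En.ep_inert e.rep o h2 (pow_mem (show e.τ x ∈ H443.inP _ from t) i))]
    simp
  have e2 : (s.ρ (th b (kk b φ)))ᵀ * E = ((x : ℕ) : La) • (E * s.ρ (kk b φ⁻¹)) := by
    rw [hE, ρ_tr s r1, det_rc (En.ep_fb e.rep o h2 f)]
  have mτ : ∀ i : ℕ, ((τ ^ i : b.Γ) : GQ) ∈ dec (e.P x) := fun i => pow_mem (inP_le_dec t) i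
  refine ⟨E, ?_, ?_⟩
  · rw [hE, det_mul, det_transpose]
    exact (((Group.isUnit _).map (rc e)).map detMonoidHom).mul (by simp)
  · rw [e0, Nt, transpose_fromCols, fromRows_mul]
    refine Rs.rows ?_ ?_
    · rw [transpose_sub, sub_mul, e1, transpose_one, one_mul, ← neg_sub, ← mul_sub_one]
      exact neg_mem (Rs.mul E (au _ (mτ _)))
    · have : (s.ρ (th b (kk b φ)) - ∑ i ∈ Finset.range x, s.ρ (th b (kk b τ)) ^ i)ᵀ * E =
          ((x : ℕ) : La) • (E * (s.ρ (kk b φ⁻¹) - 1)) -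
            ∑ i ∈ Finset.range x, E * (s.ρ (kk b (τ ^ i)⁻¹) - 1) := by
        simp only [transpose_sub, sub_mul, e2, transpose_sum, Finset.sum_mul, e1, mul_sub_one,
          Finset.sum_sub_distrib, Finset.sum_const, Finset.card_range, smul_sub,
          Nat.cast_smul_eq_nsmul]
        abel
      rw [this]
      exact sub_mem (smul_mem _ _ (Rs.mul E (au _ dφ))) (sum_mem fun i _ => Rs.mul E (au _ (mτ i)))

end Gb

end Vale.Agent.P004F.Pa
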