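import Vale.Agent.P004F.Pa.St

/-! # P004F, block PAT: powers of `1 + T` and `1 + 2 T` (helper81) -/

set_option linter.all false

open PowerSeries

noncomputable section

namespace Vale.Agent.P004F.Pa

open Vale.Agent.P022 (GQ)
open Pat (Im rs rs_unit rs_zero)

theorem two_Im1 : (2 : La) ∈ Im 1 := by simpa using Pat.two_Im 1

theorem X_Im1 : (X : La) ∈ Im 1 := by simpa using Pat.X_Im 1

theorem pow_mem_pow {y : La} (hy : y ∈ Im 1) (n : ℕ) : (1 + y) ^ 2 ^ n - 1 ∈ Im 1 ^ (n + 1) := by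
  induction n with
  | zero => simpa using hy
  | succ n ih =>
    rw [show (1 + y) ^ 2 ^ (n + 1) - 1 = ((1 + y) ^ 2 ^ n - 1) * ((1 + y) ^ 2 ^ n - 1 + 2) by ring,
      pow_succ (Im 1) (n + 1)]
    exact Ideal.mul_mem_mul ih ((Im 1).add_mem (Ideal.pow_le_self n.succ_ne_zero ih) two_Im1)

theorem Im_pow (j : ℕ) : Im 1 ^ (2 * j) ≤ Im j := by
  rw [Im, Im, Ideal.span_insert, Ideal.span_insert, pow_one, pow_one, two_mul,
    ← Ideal.span_singleton_pow, ← Ideal.span_singleton_pow]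
  exact Ideal.sup_pow_add_le_pow_sup_pow

/-- the principal units have exponent `2 ^ (2 * j)` at level `j` -/
theorem mj_pow {y : La} (hy : y ∈ Im 1) {j k : ℕ} (h : 2 ^ (2 * j) ∣ k) : mj j ((1 + y) ^ k) = 1 := by
  obtain ⟨k, rfl⟩ := h
  rw [pow_mul, map_pow, ← map_one (mj j), Ideal.Quotient.eq.2
    (Im_pow j (Ideal.pow_le_pow_right (Nat.le_succ _) (pow_mem_pow hy _))), map_one, one_pow]

theorem mj_mod {y : La} (hy : y ∈ Im 1) {j k k' : ℕ} (h : k ≡ k' [MOD 2 ^ (2 * j)]) :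
    mj j ((1 + y) ^ k) = mj j ((1 + y) ^ k') := by
  wlog le : k ≤ k' generalizing k k'
  · exact (this h.symm (le_of_not_ge le)).symm
  obtain ⟨d, rfl⟩ := Nat.exists_eq_add_of_le le
  rw [pow_add, map_mul, mj_pow hy (k := d) (by simpa using (Nat.modEq_iff_dvd' le).1 h), mul_one]

theorem twoX_Im1 : (2 * X : La) ∈ Im 1 := (Im 1).mul_mem_left _ X_Im1

theorem rs_X : rs X = 0 := rs_zero.2 X_Im1

/-- `(1 + 2 T) ^ k - 1` is `2 ^ (v + 1) T` times a unit -/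
theorem pw_dvd (m : ℕ) : ∀ k, ¬ 2 ^ m ∣ k → (1 + 2 * X : La) ^ k - 1 ∣ 2 ^ m * X := by
  have g : ∀ k, (1 + 2 * X : La) ^ k - 1 = 2 * X * ∑ i ∈ Finset.range k, (1 + 2 * X) ^ i :=
    fun k => by rw [← mul_geom_sum, add_sub_cancel_left]
  induction m with
  | zero => exact fun k h => absurd (one_dvd k) h
  | succ m ih =>
    intro k h
    obtain ⟨k, rfl | rfl⟩ := k.even_or_odd'
    · have u : IsUnit (1 + X * ∑ i ∈ Finset.range k, (1 + 2 * X : La) ^ i) :=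
        rs_unit.2 (by simp [rs_X])
      rw [show (1 + 2 * X : La) ^ (2 * k) - 1 = ((1 + 2 * X) ^ k - 1) * ((1 + 2 * X) ^ k - 1 + 2) by
        ring, show (2 : La) ^ (m + 1) * X = 2 ^ m * X * 2 by ring]
      refine mul_dvd_mul (ih k fun d => h (pow_succ' 2 m ▸ mul_dvd_mul_left 2 d)) ?_
      rw [g, show ∀ t : La, 2 * X * t + 2 = 2 * (1 + X * t) from fun t => by ring, u.mul_right_dvd]
    · have u : IsUnit (∑ i ∈ Finset.range (2 * k + 1), (1 + 2 * X : La) ^ i) := rs_unit.2 (by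
        simp [rs_X, show (2 : ZMod 2) = 0 from rfl])
      rw [g, u.mul_right_dvd]
      exact mul_dvd_mul_right (dvd_pow_self 2 m.succ_ne_zero) X

theorem X_ps (j : ℕ) (χ χ' : GQ → ℕ) (g : GQ) : mj j X ∣ ps j χ χ' g - 1 := by
  rw [ps, ← map_one (mj j), ← map_sub]
  exact map_dvd _ (X_dvd_iff.2 (by simp))

theorem dvd_two_pow {l : ℤ_[2]} (h : l ≠ 0) : ∃ n, l ∣ 2 ^ n :=
  ⟨l.valuation, by
    conv_lhs => rw [PadicInt.unitCoeff_spec h]
    simp⟩

end Vale.Agent.P004F.Pa
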