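import Vale.Agent.P004F.Pa.St
import Vale.Agent.P004F.En.Rep

/-! # P004F (FRAME), block PAT: row RK1, the rank of the Selmer group at `T = 0` -/

set_option autoImplicit false
set_option linter.all false

open NumberField Matrix Filter PowerSeries Submodule Set
open scoped Classical

noncomputable section

namespace Vale.Agent.P004F.Pa

open Vale.Agent.P022 Vale.Agent.P004K
open Vale.Agent.P022D.W (dec)
open Vale.Agent.P022E.GW (Ov)
open P004T (ds TwoK)
open Pr (ac)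
open Pat (U Sy)
open PadicInt (toZModPow)

namespace R1

theorem kill {D : ℤ_[2]} (h : D ≠ 0) : ∃ c : ℕ, ∀ (k : ℕ) (x : ZMod (2 ^ k)),
    toZModPow k D * x = 0 → 2 ^ c • x = 0 := by
  refine ⟨D.valuation, fun k x hx => ?_⟩
  rw [PadicInt.unitCoeff_spec h, map_mul, mul_assoc, map_pow, map_natCast] at hx
  rw [nsmul_eq_mul, Nat.cast_pow]
  exact ((Units.isUnit _).map (toZModPow k)).mul_right_eq_zero.1 hx

/-- no invariants: the invariants modulo `2 ^ k` have bounded exponent -/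
theorem inv_bd {G : Type} {ρ : G → M2 ℤ_[2]} {D : Set G}
    (h : ∀ v : Fin 2 → ℤ_[2], (∀ g ∈ D, (ρ g - 1) *ᵥ v = 0) → v = 0) :
    ∃ c : ℕ, ∀ (k : ℕ) (v : Fin 2 → ZMod (2 ^ k)),
      (∀ g ∈ D, (ρ g - 1).map (toZModPow k) *ᵥ v = 0) → 2 ^ c • v = 0 := by
  obtain ⟨g, hg, i, g', hg', i', k⟩ : ∃ g ∈ D, ∃ i, ∃ g' ∈ D, ∃ i',
      (ρ g - 1) i 0 * (ρ g' - 1) i' 1 - (ρ g - 1) i 1 * (ρ g' - 1) i' 0 ≠ 0 := by
    by_contra! a
    have z : ∀ g ∈ D, ∀ i, (ρ g - 1) i 0 = 0 := fun g hg i => by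
      have := congrFun (h ![-(ρ g - 1) i 1, (ρ g - 1) i 0] fun g' hg' => funext fun i' => by
        simp only [mulVec, dotProduct, Fin.sum_univ_two, cons_val_zero, cons_val_one,
          Pi.zero_apply]
        linear_combination a g hg i g' hg' i') 1
      simpa using this
    have := congrFun (h ![1, 0] fun g hg => funext fun i => by
      simp only [mulVec, dotProduct, Fin.sum_univ_two, cons_val_zero, cons_val_one, z g hg i,
        Pi.zero_apply, mul_zero, zero_mul, add_zero]) 0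
    simp at this
  obtain ⟨c, hc⟩ := kill k
  refine ⟨c, fun n v hv => funext fun a => hc n _ ?_⟩
  have a1 := congrFun (hv g hg) i
  have a2 := congrFun (hv g' hg') i'
  simp only [mulVec, dotProduct, Fin.sum_univ_two, map_apply, Pi.zero_apply] at a1 a2
  rw [map_sub, map_mul, map_mul]
  revert a
  rw [Fin.forall_fin_two]
  exact ⟨by linear_combination toZModPow n ((ρ g' - 1) i' 1) * a1 - toZModPow n ((ρ g - 1) i 1) * a2,
    by linear_combination toZModPow n ((ρ g - 1) i 0) * a2 - toZModPow n ((ρ g' - 1) i' 0) * a1⟩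

/-- primitive relations modulo all powers of two give a relation -/
theorem dep {I : Type} {y y' : I → ℤ_[2]} {c : ℕ} (h : ∀ k : ℕ, ∃ α β : ℤ, ¬ (2 ∣ α ∧ 2 ∣ β) ∧
    2 ^ c • (α • (toZModPow k ∘ y) + β • (toZModPow k ∘ y')) = 0) :
    ∃ a b : ℤ_[2], ¬ (a = 0 ∧ b = 0) ∧ a • y + b • y' = 0 := by
  have m : ∀ i j, y i * y' j = y j * y' i := fun i j => by
    refine mul_left_cancel₀ (pow_ne_zero c (two_ne_zero (α := ℤ_[2])))
      (PadicInt.ext_of_toZModPow.1 fun k => ?_)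
    obtain ⟨α, β, h1, h2⟩ := h k
    have u : ∀ a : ℤ, ¬ 2 ∣ a → IsUnit (a : ZMod (2 ^ k)) := fun a ha => by
      rw [← map_intCast (toZModPow (p := 2) k)]
      exact (PadicInt.isUnit_iff.2 ((PadicInt.norm_le_one _).eq_of_not_lt fun t =>
        ha ((PadicInt.norm_int_lt_one_iff_dvd a).1 t))).map _
    have a1 := congrFun h2 i
    have a2 := congrFun h2 j
    simp only [Pi.smul_apply, Pi.add_apply, Function.comp_apply, Pi.zero_apply] at a1 a2
    simp only [nsmul_eq_mul, zsmul_eq_mul, Nat.cast_pow, Nat.cast_ofNat] at a1 a2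
    simp only [map_mul, map_pow, map_ofNat]
    rcases not_and_or.1 h1 with t | t <;> refine (u _ t).mul_left_cancel ?_
    · linear_combination toZModPow k (y' j) * a1 - toZModPow k (y' i) * a2
    · linear_combination toZModPow k (y i) * a2 - toZModPow k (y j) * a1
  by_cases z : y' = 0
  · exact ⟨0, 1, by simp, by simp [z]⟩
  · obtain ⟨i, hi⟩ := Function.ne_iff.1 z
    refine ⟨y' i, -y i, fun t => hi t.1, funext fun j => ?_⟩
    simp only [Pi.add_apply, Pi.smul_apply, smul_eq_mul, Pi.zero_apply]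
    linear_combination -m i j

theorem noi' (e : Crv) {l : ℕ} {P : Ideal (𝓞 Qb)} (h : Ov l P) (v : Fin 2 → ℤ_[2])
    (hv : ∀ g ∈ dec P, (e.rd g - 1) *ᵥ v = 0) : v = 0 := by
  have := En.noi (hq e.par.disc) l P (ds e.δ) (fun i => (v i : ℚ_[2])) h fun g hg => funext fun i => by
    have a := congrArg ((↑) : ℤ_[2] → ℚ_[2]) (congrFun (hv g hg) i)
    have s : P004S.sg (ds e.δ) g = (sd (ds e.δ) g : ℤ) := by
      unfold P004S.sg sd
      split_ifs <;> simp
    rw [sub_mulVec, one_mulVec] at a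
    simp only [mulVec, dotProduct, Fin.sum_univ_two, Crv.rd, Matrix.smul_apply, Pi.sub_apply,
      Pi.zero_apply] at a
    simp only [zsmul_eq_mul, PadicInt.coe_sub, PadicInt.coe_add, PadicInt.coe_mul,
      PadicInt.coe_intCast, PadicInt.coe_zero] at a
    simp only [P004S.ac, Pi.smul_apply, mulVec, dotProduct, Fin.sum_univ_two, smul_eq_mul, s,
      En.mt_rep]
    change _ * (((e.r g i 0 : ℤ_[2]) : ℚ_[2]) * _ + ((e.r g i 1 : ℤ_[2]) : ℚ_[2]) * _) = _
    linear_combination a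
  exact funext fun i => PadicInt.coe_eq_zero.1 (congrFun this i)

/-- the value at `T = 0` modulo `2 ^ k` -/
def e0 (k : ℕ) : La →+* ZMod (2 ^ k) := (toZModPow k).comp constantCoeff

variable {k j : ℕ}

theorem e0_Im (h : k ≤ j + 1) (f : La) (hf : f ∈ Pat.Im (j + 1)) : e0 k f = 0 := by
  rw [e0, RingHom.comp_apply, ← RingHom.mem_ker, PadicInt.ker_toZModPow, Ideal.mem_span_singleton,
    ← coeff_zero_eq_constantCoeff_apply]
  exact_mod_cast (pow_dvd_pow _ h).trans (Pat.mem_Im.1 hf 0 j.succ_pos)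

/-- the same at a finite level -/
def ej (h : k ≤ j + 1) : Rj (j + 1) →+* ZMod (2 ^ k) := Ideal.Quotient.lift _ (e0 k) (e0_Im h)

theorem ej_ur (x : ∀ j, Rj (j + 1)) (k : ℕ) :
    ∀ᶠ j in U, ∀ h : k ≤ j + 1, ej h (x j) = e0 k (ur x) :=
  (Sy.succ.ur_spec x (k + 1)).mono fun j a h => by
    obtain ⟨y, hy⟩ := Ideal.Quotient.mk_surjective (x j)
    have := e0_Im k.le_succ _ (a y hy)
    rw [map_sub, sub_eq_zero] at this
    rw [← hy, ← this]; rfl

theorem ej_ps (h : k ≤ j + 1) (χ χ' : GQ → ℕ) (g : GQ) : ej h (ps (j + 1) χ χ' g) = 1 := by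
  change e0 k _ = 1
  simp [e0]

variable {e : Crv} {b : Fld e} {c : ℕ} {Ψ : GQ → Rj (j + 1)}

theorem ej_aa (h : k ≤ j + 1) {g : GQ} (hΨ : ej h (Ψ g) = 1) :
    (b.aa (j + 1) Ψ g).map (ej h) = (e.rd g).map (toZModPow k) := by
  ext i i'
  simp only [Fld.aa, map_apply, Matrix.smul_apply, smul_eq_mul, map_mul, hΨ, one_mul]
  change e0 k (C _) = _
  simp [e0]

/-- one level -/
theorem lev (h : k ≤ j + 1) {ε : GQ → Fin 2 → Rj (j + 1)} {ι : Type} [Fintype ι] [DecidableEq ι]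
    [IsEmpty ι] {kp : ι → b.Kp (j + 1) c Ψ} {r : ℕ} {d : Rw (Rj (j + 1)) e.σ ι r}
    (u : Un b c Ψ ε kp d) (hΨ : ∀ g, ej h (Ψ g) = 1) {n : ℕ}
    (hn : ∀ (p : e.σ) (v : Fin 2 → ZMod (2 ^ k)),
      (∀ g ∈ dec (e.P p), (e.rd g - 1).map (toZModPow k) *ᵥ v = 0) → 2 ^ n • v = 0)
    {y : Ix r e.σ ι → ZMod (2 ^ k)} (h1 : (d.Rm b Ψ).map (ej h) *ᵥ y = 0)
    (h2 : (ej h ∘ d.t) ⬝ᵥ y = 0) :
    (Cc b.Γ (b.T c) (fun g => (e.rd g).map (toZModPow k)) fun g => (d.u g).map (ej h) *ᵥ y) ∧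
      (∀ g ∈ dec (e.P 2), (d.u g).map (ej h) *ᵥ y = 0) ∧
      ((fun g => (d.u g).map (ej h) *ᵥ y) = 0 → 2 ^ n • y = 0) := by
  letI : Module (Rj (j + 1)) (ZMod (2 ^ k)) := Module.compHom _ (ej h)
  have B := u.bij (ZMod (2 ^ k))
  have S : b.Sel (Tk b c Ψ kp) (b.aa (j + 1) Ψ) ε (fun g => (d.u g).map (ej h) *ᵥ y)
      ((ej h ∘ d.t) ⬝ᵥ y) fun p => (d.m p).map (ej h) *ᵥ y := B.mapsTo (x := y) h1
  have T : Tk b c Ψ kp = b.T c := by simp [Tk]
  rw [T, h2] at S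
  refine ⟨⟨fun g hg g' hg' => ?_, S.out, S.lc, S.unr⟩,
    fun g hg => funext fun i => (S.sv g hg i).trans (smul_zero _), fun z => ?_⟩
  · rw [← ej_aa (b := b) h (hΨ g)]
    exact S.coc g hg g' hg'
  refine B.injOn (show (d.Rm b Ψ).map (ej h) *ᵥ _ = 0 by rw [mulVec_smul, h1, smul_zero])
    (show (d.Rm b Ψ).map (ej h) *ᵥ _ = 0 from mulVec_zero _) ?_
  change ((fun g => (d.u g).map (ej h) *ᵥ _), (ej h ∘ d.t) ⬝ᵥ _, fun p => (d.m p).map (ej h) *ᵥ _) =
    ((fun g => (d.u g).map (ej h) *ᵥ _), (ej h ∘ d.t) ⬝ᵥ _, fun p => (d.m p).map (ej h) *ᵥ _)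
  simp only [mulVec_smul, mulVec_zero, dotProduct_smul, h2, smul_zero, dotProduct_zero,
    congrFun z _, Pi.zero_apply, Prod.mk.injEq, true_and]
  refine funext fun p => hn p _ fun g hg => ?_
  have := S.sp p g hg
  rw [congrFun z g] at this
  rw [Matrix.map_sub _ (map_sub _), Matrix.map_one _ (map_zero _) (map_one _),
    ← ej_aa (b := b) h (hΨ g), ← Matrix.map_one (ej h) (map_zero _) (map_one _),
    ← Matrix.map_sub _ (map_sub _)]
  exact this.symm

theorem gp_mono {m n n' q : ℕ} (h : b.Gp m n q) (a : n' ≤ n) : b.Gp m n' q :=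
  ⟨h.out, h.cop, h.typ.imp fun _ t => ⟨t.1, (pow_dvd_pow 2 a).trans t.2⟩, h.gq⟩

section

variable {I J R : Type} [Fintype J] [CommRing R] {A : Matrix I J R} {t y y' : J → R} {c : ℕ}
  {α β : ℤ}

theorem cm : A *ᵥ (c • (α • y + β • y')) = c • (α • A *ᵥ y + β • A *ᵥ y') := by
  rw [mulVec_smul, mulVec_add, mulVec_smul, mulVec_smul]

theorem cm0 (h : A *ᵥ y = 0) (h' : A *ᵥ y' = 0) : A *ᵥ (c • (α • y + β • y')) = 0 := by
  rw [cm, h, h', smul_zero, smul_zero, add_zero, smul_zero]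

theorem cm1 (h : t ⬝ᵥ y = 0) (h' : t ⬝ᵥ y' = 0) : t ⬝ᵥ (c • (α • y + β • y')) = 0 := by
  rw [dotProduct_smul, dotProduct_add, dotProduct_smul, dotProduct_smul, h, h', smul_zero,
    smul_zero, add_zero, smul_zero]

end

end R1

open R1 in
/-- **row RK1** -/
theorem rk1 (hE : END) : RK1 := fun e b s w n L hι hT y y' h h' => by
  obtain ⟨c₀, hc⟩ := hE e b s.m hT
  choose c₁ hc₁ using fun p : e.σ => inv_bd (noi' e (e.ov p (List.mem_filter.1
    (List.mem_toFinset.1 (Finset.mem_filter.1 p.2).1)).1))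
  refine dep (c := Finset.univ.sup c₁ + c₀) fun k => ?_
  obtain ⟨j, ⟨⟨⟨⟨⟨hj, tw⟩, pe⟩, kp, -, un, -⟩, a1⟩, a2⟩⟩ := ((((((Pat.U_ge k).and s.tw).and s.pe).and
    L.un).and (eventually_all.2 fun a => eventually_all.2 fun i =>
      ej_ur (fun j => (L.d j).Rm b (s.Ψ j) a i) k)).and
    (eventually_all.2 fun i => ej_ur (fun j => (L.d j).t i) k)).exists
  have hk : k ≤ j + 1 := by omega
  have R : ∀ a i, L.pk.Mx (s.γ n) (.inl a) i = ur fun j => (L.d j).Rm b (s.Ψ j) a i := by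
    rintro (a | a) i
    · rfl
    · exact congrFun (congrFun (Sy.succ.um_mul (fun j => Nl b (s.Ψ j) a.1)
        fun j => (L.d j).l a.1).symm a.2) i
  have sol : ∀ {y : L.pk.I → ℤ_[2]}, (L.pk.Mx (s.γ n)).map constantCoeff *ᵥ y = 0 →
      ((L.d j).Rm b (s.Ψ j)).map (ej hk) *ᵥ (toZModPow k ∘ y) = 0 ∧
        (ej hk ∘ (L.d j).t) ⬝ᵥ (toZModPow k ∘ y) = 0 := fun {y} h => by
    have t := fun a => congrArg (toZModPow k) (congrFun h a)
    simp only [mulVec, dotProduct, map_sum, map_mul, map_apply, Pi.zero_apply, map_zero] at t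
    refine ⟨funext fun a => Eq.trans (Finset.sum_congr rfl fun i _ => ?_) (t (.inl a)),
      Eq.trans (Finset.sum_congr rfl fun i _ => ?_) (t (.inr none))⟩
    · exact congrArg (· * _) ((a1 a i hk).trans (congrArg (e0 k) (R a i).symm))
    · rw [Function.comp_apply, a2 i hk]; rfl
  have hn : ∀ (p : e.σ) (v : Fin 2 → ZMod (2 ^ k)),
      (∀ g ∈ dec (e.P p), (e.rd g - 1).map (toZModPow k) *ᵥ v = 0) →
        2 ^ Finset.univ.sup c₁ • v = 0 := fun p v hv => by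
    rw [← Nat.sub_add_cancel (Finset.le_sup (f := c₁) (Finset.mem_univ p)), pow_add, mul_smul,
      hc₁ p k v hv, smul_zero]
  have l := fun y => lev hk un (ej_ps hk _ _) hn (y := y)
  obtain ⟨x1, x2, -⟩ := l _ (sol h).1 (sol h).2
  obtain ⟨x3, x4, -⟩ := l _ (sol h').1 (sol h').2
  obtain ⟨v, -, xq⟩ := pe.xq
  obtain ⟨α, β, o, z⟩ := hc k (s.C j) (fun q hq => by
    rw [Nat.primeFactors_mul tw.sq.ne_zero xq.pr.ne_zero, xq.pr.primeFactors, Finset.mem_union,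
      Finset.mem_singleton] at hq
    exact gp_mono (hq.elim (tw.gp q) fun t => t ▸ pe.gp) (by omega)) _ _ x1 x3
    fun g hg => ⟨x2 g hg, x4 g hg⟩
  refine ⟨α, β, o, ?_⟩
  rw [pow_add, mul_smul]
  refine (l _ ?_ ?_).2.2 (funext fun g => ?_)
  · exact cm0 (sol h).1 (sol h').1
  · exact cm1 (sol h).2 (sol h').2
  · exact cm.trans (congrFun z g)

end Vale.Agent.P004F.Pa
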