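import Vale.Agent.P004F.Pa.St
import Vale.Agent.P004F.Ra.Lv
import Vale.Agent.P004F.Pat.Vec

/-! # P004F (FRAME), row SQX: the characters of the perturbed tower -/

set_option linter.all false

open NumberField Matrix Filter PowerSeries Submodule Set
open scoped Classical Pointwise

noncomputable section

namespace Vale.Agent.P004F.Pa

open Vale.Agent.P022 Vale.Agent.P004K
open Vale.Agent.P027M.S (Inert)
open Vale.Agent.P022D.W (dec)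
open Vale.Agent.P022E.GW (Ov Fb Gn)
open P004S (nu)
open P004T (ds)
open Pat (U Sy Im two_Im X_Im)

/-- the zeros of the Euler factors can be separated -/
def SEP : Prop := ∀ (e : Crv) (b : Fld e) (m k : ℕ) (c : ℕ → ℕ) (χ : ℕ → GQ → ℕ) (β : La), k ≠ 0 →
  β ≠ 0 → (∀ᶠ j in U, b.Tw m (2 * (j + 1)) (c j) (χ j)) → ∃ y : ℕ → ℕ,
  ∀ (q : ℕ → ℕ) (χ' : ℕ → GQ → ℕ), (∀ᶠ j in U, b.Pe m k y (2 * (j + 1)) (c j) (χ j) (q j) (χ' j)) →
  (∀ᶠ j in U, b.Chr (j + 1) (c j * q j) (ps (j + 1) (χ j) (χ' j))) →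
  ∀ π : La, Prime π → ¬ π ∣ 2 →
    (∀ x, Sj π (um fun j => Nl b (ps (j + 1) (χ j) (χ' j)) x)) ∨
    (¬ π ∣ X ∧ ¬ π ∣ β ∧ ∃ x, (∃ i i', ¬ π ∣ um (fun j => Nl b (ps (j + 1) (χ j) (χ' j)) x) i i') ∧
      ∀ y, y ≠ x → Sj π (um fun j => Nl b (ps (j + 1) (χ j) (χ' j)) y))

namespace Sx

theorem pw_mem {R : Type} [CommRing R] {I : Ideal R} (h2 : (2 : R) ∈ I) {x : R} (h : x - 1 ∈ I)
    (n : ℕ) : x ^ 2 ^ n - 1 ∈ I ^ (n + 1) := by
  induction n with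
  | zero => simpa using h
  | succ n ih =>
    rw [show x ^ 2 ^ (n + 1) - 1 = (x ^ 2 ^ n - 1) * (x ^ 2 ^ n - 1 + 2) by rw [pow_succ, pow_mul]; ring,
      pow_succ I (n + 1)]
    exact Ideal.mul_mem_mul ih (I.add_mem (Ideal.pow_le_self n.succ_ne_zero ih) h2)

theorem Im_pow (j : ℕ) : Im 1 ^ (2 * j) ≤ Im j := by
  rw [Im, Im, two_mul, Ideal.span_insert, Ideal.span_insert, ← Ideal.span_singleton_pow (2 : La) j,
    ← Ideal.span_singleton_pow (X : La) j, pow_one, pow_one]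
  exact Ideal.sup_pow_add_le_pow_sup_pow

theorem pw {x : La} (h : x - 1 ∈ Im 1) (j : ℕ) : mj j x ^ 2 ^ (2 * j) = 1 := by
  rw [← map_pow, ← map_one (mj j), Ideal.Quotient.eq]
  exact Im_pow j (Ideal.pow_le_pow_right (Nat.le_succ _) (pw_mem (by simpa using two_Im 1) h _))

theorem pw_mod {x : La} (h : x - 1 ∈ Im 1) {j a a' : ℕ} (k : a ≡ a' [MOD 2 ^ (2 * j)]) :
    mj j x ^ a = mj j x ^ a' := by
  rw [pow_eq_pow_mod a (pw h j), pow_eq_pow_mod a' (pw h j), k]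

theorem X1 : (1 + X : La) - 1 ∈ Im 1 := by simpa using X_Im 1

theorem X2 : (1 + 2 * X : La) - 1 ∈ Im 1 := by simpa using (Im 1).mul_mem_left 2 (X_Im 1)

theorem ps_eq (j : ℕ) (χ χ' : GQ → ℕ) (g : GQ) :
    ps j χ χ' g = mj j (1 + X) ^ χ g * mj j (1 + 2 * X) ^ χ' g := by
  rw [ps, map_mul, map_pow, map_pow]

theorem ps_ord (j : ℕ) (χ χ' : GQ → ℕ) (g : GQ) : ps j χ χ' g ^ 2 ^ (2 * j) = 1 := by
  rw [ps_eq, mul_pow, pow_right_comm, pow_right_comm _ (χ' g), pw X1, pw X2, one_pow, one_pow, one_mul]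

theorem ps_zero {j : ℕ} {χ χ' : GQ → ℕ} {g : GQ} (h : 2 ^ (2 * j) ∣ χ' g) :
    ps j χ χ' g = ps j χ 0 g := by
  rw [ps_eq, ps_eq, pw_mod X2 ((Nat.modEq_zero_iff_dvd).2 h)]; rfl

theorem ps_X (j : ℕ) (χ χ' : GQ → ℕ) (g : GQ) : ps j χ χ' g - 1 ∈ Ideal.span {mj j X} := by
  rw [Ideal.mem_span_singleton, ps, ← map_one (mj j), ← map_sub]
  exact map_dvd _ (X_dvd_iff.2 (by simp))

theorem ps_two (j : ℕ) (χ χ' : GQ → ℕ) (g : GQ) :
    ps j χ χ' g - mj j (1 + X) ^ χ g ∈ Ideal.span {(2 : Rj j)} := by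
  rw [Ideal.mem_span_singleton, ps_eq, ← mul_sub_one]
  refine Dvd.dvd.mul_left (Dvd.dvd.trans ⟨mj j X, ?_⟩ (sub_one_dvd_pow_sub_one _ _)) _
  rw [map_add, map_mul, map_one, map_ofNat]; ring

variable {e : Crv} {b : Fld e} {m m' k n j c q : ℕ} {χ χ' : GQ → ℕ} {y : ℕ → ℕ}

theorem gp_mono (h : m ≤ m') (g : b.Gp m n q) : b.Gp m' n q :=
  ⟨g.out, g.cop, g.typ, fun d => g.gq ((pow_dvd_pow _ h).trans d)⟩

theorem tw_mono (h : m ≤ m') (t : b.Tw m n c χ) : b.Tw m' n c χ :=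
  ⟨t.toAd, t.sq, t.one, t.crd.trans h, fun q hq => gp_mono h (t.gp q hq), fun q hq P o =>
    (t.ram q hq P o).imp fun _ a => ⟨a.1, fun d => a.2.1 ((pow_dvd_pow _ h).trans d), a.2.2⟩⟩

theorem pe_mono (h : m ≤ m') (t : b.Pe m k y n c χ q χ') : b.Pe m' k y n c χ q χ' :=
  ⟨t.toAd, t.xq.imp fun _ a => ⟨a.1.trans_le h, a.2⟩, gp_mono h t.gp, fun P o =>
    (t.ram P o).imp fun _ a => ⟨a.1, fun d => a.2 ((pow_dvd_pow _ h).trans d)⟩, t.odd, t.two, t.tw⟩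

theorem chr_of {C : ℕ} (h : b.Ad (2 * j) c χ) (h' : b.Ad (2 * j) q χ') (sq : Squarefree C)
    (cop : ∀ l ∈ C.primeFactors, l ∉ e.S ∧ ¬ l ∣ b.δ') (le : Hc b.j C ≤ Hc b.j c)
    (le' : Hc b.j C ≤ Hc b.j q) : b.Chr j C (ps j χ χ') where
  sq := sq
  cop := cop
  mul g hg g' hg' := by
    rw [ps_eq, ps_eq, ps_eq, pw_mod X1 (h.add g hg g' hg'), pw_mod X2 (h'.add g hg g' hg'), pow_add,
      pow_add, mul_mul_mul_comm]
  ker g hg := by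
    rw [ps_eq, pw_mod X1 (Nat.modEq_zero_iff_dvd.2 (h.ker g (le hg))),
      pw_mod X2 (Nat.modEq_zero_iff_dvd.2 (h'.ker g (le' hg))), pow_zero, pow_zero, one_mul]
  ord g _ := ps_ord _ _ _ _

/-- the unperturbed character -/
theorem chr0 (t : b.Tw m (2 * j) c χ) : b.Chr j c (ps j χ 0) :=
  chr_of t.toAd ⟨fun _ _ _ _ => rfl, fun _ _ => dvd_zero _⟩ t.sq
    (fun l hl => ⟨(t.gp l hl).out, (t.gp l hl).cop⟩) le_rfl le_rfl

/-- the perturbed character -/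
theorem chr1 (r1 : RC1) (t : b.Tw m (2 * j) c χ) (p : b.Pe m' k y (2 * j) c χ q χ') :
    b.Chr j (c * q) (ps j χ χ') := by
  obtain ⟨v, -, x⟩ := p.xq
  have c0 := t.sq.ne_zero
  have cop : c.Coprime q := ((Nat.Prime.coprime_iff_not_dvd x.pr).2 fun d => x.out
    (Finset.mem_union_right _ (Nat.mem_primeFactors.2 ⟨x.pr, d, c0⟩))).symm
  refine chr_of t.toAd p.toAd ((Nat.squarefree_mul cop).2 ⟨t.sq, x.pr.squarefree⟩) (fun l hl => ?_)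
    ((r1 _ _ b.iq c c0.bot_lt).2.2.2.2.2 q x.pr.pos)
    (mul_comm q c ▸ (r1 _ _ b.iq q x.pr.pos).2.2.2.2.2 c c0.bot_lt)
  rw [cop.primeFactors_mul, x.pr.primeFactors, Finset.mem_union, Finset.mem_singleton] at hl
  rcases hl with hl | rfl
  exacts [⟨(t.gp l hl).out, (t.gp l hl).cop⟩, ⟨p.gp.out, p.gp.cop⟩]

/-- the kernel of an additive character -/
def adk (h : b.Ad n c χ) : Subgroup GQ where
  carrier := {g | g ∈ b.Γ ∧ 2 ^ n ∣ χ g}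
  one_mem' := ⟨one_mem _, h.ker 1 (one_mem _)⟩
  mul_mem' {g g'} a a' := ⟨mul_mem a.1 a'.1,
    ((h.add g a.1 g' a'.1).dvd_iff dvd_rfl).2 (dvd_add a.2 a'.2)⟩
  inv_mem' {g} a := ⟨inv_mem a.1, (Nat.dvd_add_right a.2).1
    (((h.add g a.1 _ (inv_mem a.1)).dvd_iff dvd_rfl).1 (by
      rw [mul_inv_cancel]; exact h.ker 1 (one_mem _)))⟩

/-- an unramified character which is trivial at the Frobenius element -/
theorem ad_dec (r1 : RC1) (r2 : RC2) (h : b.Ad n c χ) (c0 : 0 < c) {p : ℕ} (hp : p ∈ e.S)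
    (pc : ¬ p ∣ c) (h0 : 2 ^ n ∣ χ (b.φ p)) {g : GQ} (hg : g ∈ dec (e.P p)) : 2 ^ n ∣ χ g :=
  (P004S.lt.dec_le (e.ov p hp) (b.ch.frb p hp) (U := adk h)
    (Subgroup.isOpen_mono (H₁ := Hc b.j c) (fun g a => ⟨a.1, h.ker g a⟩) (r1 _ _ b.iq c c0).2.1)
    ⟨b.ch.mem p hp, h0⟩ (fun i hi => have a := b.le p hp (P004S.inert_dec hi)
      ⟨a, h.ker i (Ra.unr_hc r2 b.iq c0 (e.ov p hp) pc a hi)⟩) hg).2

/-- the perturbation is not seen at the place above two -/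
theorem ps_dec (r1 : RC1) (r2 : RC2) (p : b.Pe m k y (2 * j) c χ q χ') {g : GQ}
    (hg : g ∈ dec (e.P 2)) : ps j χ χ' g = ps j χ 0 g := by
  obtain ⟨v, -, x⟩ := p.xq
  exact ps_zero (ad_dec r1 r2 p.toAd x.pr.pos e.two (fun d => p.gp.out
    ((Nat.prime_dvd_prime_iff_eq Nat.prime_two x.pr).1 d ▸ e.two)) p.two hg)

end Sx

end Vale.Agent.P004F.Pa
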