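import Vale.Agent.P004F.Pa.Sq0
import Vale.Agent.P004F.Pa.Bet
import Vale.Agent.P004F.Pa.Sep

/-! # P004F (FRAME), row SQX: the perturbed tower exists -/

set_option linter.all false

open NumberField Matrix Filter PowerSeries Submodule Set
open scoped Classical Pointwise

noncomputable section

namespace Vale.Agent.P004F.Pa

open Vale.Agent.P022 Vale.Agent.P004K
open Vale.Agent.P022D.W (dec)
open Pat (U Sy Im U_of U_ge U_fin U_bdd U_ch)

open Sx

/-- **the perturbed tower exists** -/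
theorem sqx (r1 : RC1) (r2 : RC2) (h1 : ES) (h2 : PE) (h3 : DPL) (h4 : CNT) (h5 : SEP) : SQX := by
  intro e b ⟨m, B, c, χ, tw, up, J₀, lo⟩
  have T : Tendsto (fun j => 2 * (j + 1)) atTop atTop :=
    tendsto_atTop_mono (fun j => by show j ≤ _; omega) tendsto_id
  replace tw := U_of (T.eventually tw)
  replace lo := U_of (T.eventually lo)
  replace up := fun J => U_of (T.eventually (up J))
  generalize hc : (fun j => c (2 * (j + 1))) = c' at *
  generalize hχ : (fun j => χ (2 * (j + 1))) = χ' at *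
  simp only [congrFun hc, congrFun hχ] at tw lo up
  clear hc hχ c χ
  rename' c' => c, χ' => χ
  obtain ⟨k, m', k0, pe⟩ := h2 e b m
  obtain ⟨c₀, es⟩ := h1 e b
  choose ε es using fun j => es (j + 1) j.succ_pos
  obtain ⟨g, i, gv, β0⟩ := bet e b c₀ (fun j => ps (j + 1) (χ j) 0)
    (fun j => ε j (ps (j + 1) (χ j) 0 (b.φ 2))) (.of_forall fun j g _ => ps_X _ _ _ g)
    (tw.mono fun j t => let ⟨_, _, _, a⟩ := es j _ _ (chr0 t); a.free fun g _ => ps_X _ _ _ g)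
  have tw' := tw.mono fun j t => tw_mono (le_max_left m m') t
  obtain ⟨y, sep⟩ := h5 e b _ k c χ _ k0 β0 tw'
  obtain ⟨x, hx⟩ := U_ch (α := fun _ => ℕ × (GQ → ℕ))
    (P := fun j x => b.Pe (max m m') k y (2 * (j + 1)) (c j) (χ j) x.1 x.2) ((tw.and (U_ge m')).mono fun j a =>
    let ⟨q, χ', p⟩ := pe y _ _ _ (by omega) a.1; ⟨(q, χ'), pe_mono (le_max_right m m') p⟩)
  have chr := (tw.and hx).mono fun j a => chr1 r1 a.1 a.2
  have p2 := P022D.W.phi_mem Nat.prime_two (e.ov 2 e.two).2.1 (b.ch.frb 2 e.two)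
  obtain ⟨z, hz⟩ := U_ch (α := fun j => (_ → GQ → Fin 2 → Rj (j + 1)) × (_ → Rj (j + 1)) ×
      (_ → e.σ → Fin 2 → Rj (j + 1))) (P := fun j z => b.Es c₀ (j + 1) (c j * (x j).1)
      (ps (j + 1) (χ j) (x j).2) (ε j (ps (j + 1) (χ j) 0 (b.φ 2))) z.1 z.2.1 z.2.2)
    ((chr.and hx).mono fun j a => let ⟨κ, t, μ, p⟩ := es j _ _ a.1
      ⟨(κ, t, μ), ps_dec r1 r2 a.2 p2 ▸ p⟩)
  obtain ⟨v, hv⟩ := U_ch (hx.mono fun j a => a.xq)
  obtain ⟨v, -, ev⟩ := U_bdd v (hv.mono fun j a => a.1.le)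
  replace hv := (hv.and ev).mono fun j a => a.2 ▸ a.1.2
  obtain ⟨l, hl⟩ := U_ch lo
  obtain ⟨l, -, el⟩ := U_bdd l (C := B) ((hl.and (up J₀)).mono fun j a => by
    have := (Nat.pow_le_pow_iff_right one_lt_two).1 (a.1.1.trans a.2); omega)
  replace hl := (hl.and el).mono fun j a => a.2 ▸ a.1
  have big : ∀ n, ∀ᶠ j in U, n < 2 ^ (2 * (j + 1)) := fun n => (U_ge n).mono fun j a =>
    lt_of_le_of_lt (by omega) Nat.lt_two_pow_self
  set J := max J₀ (B + 4 * 2 ^ v + 1) with hJ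
  have hJ' : B + 4 * 2 ^ v < J := Nat.lt_of_succ_le (le_max_right _ _)
  have cnt := (tw.and (hv.and ((big J).and (up J)))).mono fun j a =>
    h4 e b _ _ _ _ _ v B J J₀ a.1 a.2.1 a.2.2.1.le (le_max_left _ _) hJ' a.2.2.2
  refine ⟨⟨max m m', k, c₀, B + 4 * 2 ^ v, J, l + 2 * 2 ^ v, y, c, χ, fun j => (x j).1,
    fun j => (x j).2, _, fun j => (z j).1, fun j => (z j).2.1, fun j => (z j).2.2, tw', hx, chr, hz,
    ?_, hJ', cnt.mono fun j a => a.2, (cnt.and hl).mono fun j a => ?_,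
    g, i, gv, _, ?_, β0, sep _ _ hx chr⟩⟩
  · filter_upwards [hz, tw, hv, hl, big (l + 2 * 2 ^ v), U_ge (l + 2 * 2 ^ v)] with j a t s u w w'
    exact a.an (χ j) (fun g _ => ps_two _ _ _ g) _ (Nat.lt_succ_of_le w')
      (h3 e b _ _ _ _ _ v l t s w u.2)
  · rw [mul_add, pow_add, ← mul_assoc]
    exact (Nat.mul_le_mul_right _ a.2.1).trans a.1.1
  · refine congrArg det (congrArg Matrix.of (funext fun a => ?_))
    rw [show um (fun j => b.aa (j + 1) (ps (j + 1) (χ j) 0) (g a j)) =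
      um (fun j => b.aa (j + 1) (ps (j + 1) (χ j) (x j).2) (g a j)) from
      Sy.succ.um_ae (hx.mono fun j p => congrArg (· • _) (ps_dec r1 r2 p (gv a j)).symm)]

/-- the separation row in the shape used by `sqx` -/
theorem sep_row (r1 : RC1) (r2 : RC2) (h1 : UNI) (h2 : NSC) : SEP :=
  fun e b m k c χ β k0 β0 tw => (sep r1 r2 h1 h2 e b m k k0 c χ tw β β0).imp
    fun y h q χ' pe _ => h m q χ' pe

end Vale.Agent.P004F.Pa
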